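import Vale.Agent.P269.G3.Jet
import Vale.Agent.P269.Base.FldA
import Vale.Agent.P269.Base.Mark
import Vale.Agent.P269.Base.LF
import Vale.Agent.P269.Base.Match

/-!
# Jets of the fields at a marked point: analysis
-/

set_option linter.unusedSectionVars false

namespace Vale.Agent.P269.Ch

open Set Function Topology Filter Base

namespace JetA

theorem vz_of_dv {r : ℕ} {f g : ℂ → ℂ} (h : Dv r f) (e : f =ᶠ[𝓝 0] g) :
    Vz r f (iteratedDeriv r g 0 / r.factorial) := by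
  obtain ⟨u, h1, h2⟩ := h
  refine ⟨u, h1, ?_, (h2.filter_mono nhdsWithin_le_nhds).mono fun t e => by simpa using e⟩
  have h3 : f =ᶠ[𝓝 0] (fun t => t ^ r) * u := h2
  rw [← e.iteratedDeriv_eq, h3.iteratedDeriv_eq,
    iteratedDeriv_mul (by fun_prop) h1.contDiffAt, Finset.sum_eq_single r (fun i _ hi => by
      rw [iteratedDeriv_fun_pow_zero, if_neg hi, Nat.cast_zero, mul_zero, zero_mul]) (by simp),
    eq_div_iff (Nat.cast_ne_zero.2 (Nat.factorial_ne_zero _))]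
  simp [Nat.descFactorial_self, mul_comm]

theorem exists_coef {T : Type*} [TopologicalSpace T] {m : ℕ} {c d w : T → Fin m → ℂ} {t₀ : T}
    (hc : ContinuousAt c t₀) (hd : ContinuousAt d t₀) (hw : ContinuousAt w t₀)
    (h : LinearIndependent ℂ ![c t₀, d t₀]) : ∃ α : T → ℂ, ContinuousAt α t₀ ∧
      ∀ᶠ t in 𝓝 t₀, ∀ a b : ℂ, w t - a • d t = b • c t → a = α t := by
  obtain ⟨h1, h2⟩ := li_pair_iff.1 h
  obtain ⟨i, hi⟩ := Function.ne_iff.1 h1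
  obtain ⟨k, hk⟩ := Function.ne_iff.1 fun e => hi (h2 (c t₀ i) (d t₀ i) e)
  have h3 : ContinuousAt (fun t => c t i * d t k - d t i * c t k) t₀ :=
    ((continuousAt_pi.1 hc i).mul (continuousAt_pi.1 hd k)).sub
      ((continuousAt_pi.1 hd i).mul (continuousAt_pi.1 hc k))
  have h4 : c t₀ i * d t₀ k - d t₀ i * c t₀ k ≠ 0 := sub_ne_zero.2 hk
  refine ⟨fun t => (c t i * w t k - w t i * c t k) / (c t i * d t k - d t i * c t k),
    (((continuousAt_pi.1 hc i).mul (continuousAt_pi.1 hw k)).sub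
      ((continuousAt_pi.1 hw i).mul (continuousAt_pi.1 hc k))).div h3 h4,
    (h3.eventually_ne h4).mono fun t ht a b e => (eq_div_iff ht).2 ?_⟩
  have e1 := congrFun e i
  have e2 := congrFun e k
  simp only [Pi.sub_apply, Pi.smul_apply, smul_eq_mul] at e1 e2
  linear_combination c t k * e1 - c t i * e2

theorem br_lin {ι : Type} [Fintype ι] {M : ι → ℕ} {o : ι} {C : Set (V M)} {γ : ℂ → V M}
    (h : IsBranch o C γ) {a : ℂ} (ha : a ≠ 0) :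
    IsBranch o C (fun t => γ (a * t)) ∧ deriv (fun t => γ (a * t)) 0 = a • deriv γ 0 := by
  have h1 : AnalyticAt ℂ (fun t => a * t) 0 := analyticAt_const.mul analyticAt_id
  have h2 : deriv (fun t => γ (a * t)) 0 = a • deriv γ 0 := by
    rw [deriv_comp_mul_left, mul_zero]
  obtain ⟨h3, h4⟩ := li_pair_iff.1 h.imm
  refine ⟨⟨h.holo.comp_of_eq h1 (mul_zero a),
    (h1.continuousAt.tendsto.mono_right (by rw [mul_zero])).eventually h.mem, ?_⟩, h2⟩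
  rw [h2, mul_zero]
  exact li_pair h3 fun e s k => (mul_eq_zero.1 (h4 (e * a) s
    ((mul_smul e a _).trans k))).resolve_right ha

theorem an_jet {P Q : Type*} [NormedAddCommGroup P] [NormedSpace ℂ P] [NormedAddCommGroup Q]
    [NormedSpace ℂ Q] {σ : P × ℂ → Q} {Ψ : P × Q → ℂ} {p : P} (hσ : AnalyticAt ℂ σ (p, 0))
    (hΨ : AnalyticAt ℂ Ψ (p, σ (p, 0))) (r : ℕ) :
    AnalyticAt ℂ (fun y => iteratedDeriv r (fun t => Ψ (y, σ (y, t))) 0 / r.factorial) p :=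
  ((an_iteratedDeriv (F := fun q => Ψ (q.1, σ q)) (hΨ.comp_of_eq (analyticAt_fst.prod hσ) rfl)
    r).comp_of_eq (analyticAt_id.prod analyticAt_const) rfl).mul analyticAt_const

theorem ev_curry {P Q : Type*} [TopologicalSpace P] [TopologicalSpace Q] {σ : P × ℂ → Q} {p : P}
    (hσ : ContinuousAt σ (p, 0)) {A : P × Q → Prop} (h : ∀ᶠ q in 𝓝 (p, σ (p, 0)), A q) :
    ∀ᶠ y in 𝓝 p, ∀ᶠ t in 𝓝 (0 : ℂ), A (y, σ (y, t)) :=
  ((continuousAt_fst.prodMk hσ).eventually h).curry_nhds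

end JetA

open JetA

variable {S Λ R J K ι ν κ : Type} [Fintype S] [Fintype Λ] [Fintype R] [Fintype J] [Fintype K]
  [Fintype ι] [DecidableEq ι] [Fintype ν] [Fintype κ] {ch : Ch ι J} {F : Fam S Λ R J K}
  {x₀ : ch.WF ν κ Λ}

namespace JetA

theorem jt_eq {x : ch.W ν} (hx : x ∈ ch.base ν) {j : J} (h : ∀ c ∈ crv x, ∃ y, Val x j c y)
    {γ : ℂ → V ch.M} (hγ : IsBranch ch.o (crv x) γ) (hn : ¬IsNode ch.o (crv x) (γ 0)) {a b : ℂ}
    (ha : a ≠ 0) {v : V ch.M} (hv : v - a • deriv γ 0 ∈ Psi.Nr (γ 0)) {r : ℕ}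
    (hb : Vz r (fun t => fld x (γ t) j) b) : jt x j (γ 0) v r = a ^ r * b := by
  have key : ∀ δ, IsBranch ch.o (crv x) δ → δ 0 = γ 0 → deriv δ 0 - v ∈ Psi.Nr (γ 0) →
      Vz r (fun t => fld x (δ t) j) (a ^ r * b) := fun δ k1 k2 k3 => by
    obtain ⟨-, s, ψ, a1, a2, a3, a4, a5, a6⟩ :=
      (hx.2.2.1.nod.loc_of_branch hγ hn).lift k1.holo k1.mem k2
    obtain ⟨u, hu⟩ := Psi.mem_Nr.1 (add_mem k3 hv)
    have e : deriv ψ 0 = a := sub_eq_zero.1 (Psi.eq_zero hγ (s := u ch.o - deriv s 0 ch.o) (by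
      have := congrFun hu ch.o
      simp only [a6, sub_add_sub_cancel, Pi.sub_apply, Pi.add_apply, Pi.smul_apply,
        Pi.smul_apply'] at this
      rw [sub_smul, sub_smul, ← this]
      abel))
    have s1 : ∀ i, s 0 i ≠ 0 := fun i => by simp [a3]
    have := (hb.comp a2 a4 (e ▸ ha)).an_mul ((analyticAt_chz (χ := ch.wd j) s1).comp a1)
    rw [Function.comp_apply, a3, chz_one, one_mul, e, zpow_natCast] at this
    refine this.congr (mem_nhdsWithin_of_mem_nhds ?_)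
    filter_upwards [a5, (a2.continuousAt.tendsto.mono_right (by rw [a4])).eventually hγ.mem,
      eventually_all.2 fun i => (continuousAt_pi.1 a1.continuousAt i).eventually_ne (s1 i)]
      with t b1 b2 b3
    rw [b1, fld_smul b2 (h _ b2) b3]
    rfl
  obtain ⟨k1, k2⟩ := br_lin hγ ha
  have k3 : deriv (fun t => γ (a * t)) 0 - v ∈ Psi.Nr (γ 0) := by
    rw [k2, ← neg_sub]
    exact neg_mem hv
  have k4 : (fun t => γ (a * t)) 0 = γ 0 := congrArg γ (mul_zero a)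
  exact (Classical.epsilon_spec (p := fun a => ∀ δ, IsBranch ch.o (crv x) δ → δ 0 = γ 0 →
    deriv δ 0 - v ∈ Psi.Nr (γ 0) → Vz r (fun t => fld x (δ t) j) a) ⟨_, key⟩ _ k1 k4 k3).unique
      (key _ k1 k4 k3)

theorem exists_br (hc : ch.Cuts) {x : ch.W ν} (hx : x ∈ ch.base ν) (n : ν) :
    ∃ σ : ch.W ν × ℂ → V ch.M, AnalyticAt ℂ σ (x, 0) ∧ ∀ᶠ y in 𝓝 x, y ∈ ch.base ν →
      IsBranch ch.o (crv y) (fun t => σ (y, t)) ∧ σ (y, 0) = y.p n := by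
  have h1 := hc.locFam ⟨x, hx⟩
  obtain ⟨σ, h2, h3⟩ := h1.chart_at (z := fun y => y.p n) (W.an_p analyticAt_id n)
    (.of_forall fun y => (y.2.2.2.2.1 n).1) (hx.2.2.2.1 n).2
  refine ⟨σ, h2.an, (Holo.ev_sub hx).1 ?_⟩
  filter_upwards [((continuous_id.prodMk continuous_const).tendsto _).eventually (h2.isBranch h1),
    h3] with y k1 k2
  exact ⟨by simpa only [zero_add, id] using k1, k2⟩

theorem main (hc : ch.Cuts) (n : Mk ν κ) (hx : x₀ ∈ ch.solF ν κ F) :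
    ∃ (v : ch.WF ν κ Λ → V ch.M) (Φ : J → ℕ → ch.WF ν κ Λ → ℂ), AnalyticAt ℂ v x₀ ∧
      (∀ᶠ x in 𝓝 x₀, x.2 ∈ ch.base _ →
        ∃ γ, IsBranch ch.o (crv x.2) γ ∧ γ 0 = x.2.p n ∧ v x = deriv γ 0) ∧
      ∀ j r, AnalyticAt ℂ (Φ j r) x₀ ∧ ∀ᶠ x in 𝓝 x₀, ∀ w a, (x, w) ∈ jD F n j r →
        w - a • v x ∈ (ch.sdψ S Λ n).N x → jF n j r (x, w) = a ^ r * Φ j r x := by
  have hb := hx.1.2.1
  obtain ⟨σ, h1, h2⟩ := exists_br hc hb n
  have h0 := (h2.self_of_nhds hb).2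
  choose Ψ h3 h4 using fun j => exists_an_fld hb.1 (crv_ne (hb.2.2.2.1 n).1) j
  rw [← h0] at h3 h4
  have t := continuous_snd.tendsto x₀
  refine ⟨fun x => deriv (fun t => σ (x.2, t)) 0,
    fun j r x => iteratedDeriv r (fun t => Ψ j (x.2, σ (x.2, t))) 0 / r.factorial,
    (an_deriv_snd h1).comp_of_eq (analyticAt_snd.prod analyticAt_const) rfl,
    (t.eventually h2).mono fun x a b => ⟨_, (a b).1, (a b).2, rfl⟩,
    fun j r => ⟨(an_jet h1 (h3 j) r).comp analyticAt_snd, ?_⟩⟩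
  filter_upwards [t.eventually h2, t.eventually (ev_curry h1.continuousAt (h4 j))]
    with x k1 k2 w a ⟨b1, b2, _, b4⟩ e
  obtain ⟨k3, k4⟩ := k1 b1.1.2.1
  have k5 := fun c hc => ((mem_solF.1 b1).2 c hc).1 j
  have := jt_eq b1.1.2.1 k5 k3 (k4.symm ▸ (b1.1.2.1.2.2.2.1 n).2) (a := a) (v := w)
    (fun z => b4 (by simpa only [z, zero_smul, sub_zero] using e)) (k4.symm ▸ e)
    (vz_of_dv (b2 _ k3 k4) ((k2.and k3.mem).mono fun t a => a.1 a.2 (k5 _ a.2)))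
  rwa [k4] at this

end JetA

variable (hc : ch.Cuts) (n : Mk ν κ)
include hc

theorem an_vl (hx : x₀ ∈ ch.solF ν κ F) : ∃ Φ : ch.WF ν κ Λ → (Λ → ℂ) × (J → ℂ),
    AnalyticAt ℂ Φ x₀ ∧ ∀ᶠ x in 𝓝 x₀, x ∈ ch.solF ν κ F → vl x n = Φ x := by
  have hb := hx.1.2.1
  choose Ψ h3 h4 using fun j => exists_an_fld hb.1 (crv_ne (hb.2.2.2.1 n).1) j
  have h1 : AnalyticAt ℂ (fun x : ch.WF ν κ Λ => (x.2, x.2.p n)) x₀ :=
    analyticAt_snd.prod (W.an_p analyticAt_snd n)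
  refine ⟨fun x => (x.1, fun j => Ψ j (x.2, x.2.p n)),
    analyticAt_fst.prod (AnalyticAt.pi fun j => (h3 j).comp_of_eq h1 rfl), ?_⟩
  filter_upwards [h1.continuousAt.eventually (eventually_all.2 h4)] with x a b
  have c := (b.1.2.1.2.2.2.1 n).1
  exact Prod.ext rfl (funext fun j => a j c (((mem_solF.1 b).2 _ c).1 j))

theorem an_jF (hx : x₀ ∈ ch.solF ν κ F) :
    ∃ (v : ch.WF ν κ Λ → V ch.M) (Φ : J → ℕ → ch.WF ν κ Λ → ℂ), AnalyticAt ℂ v x₀ ∧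
      (∀ᶠ x in 𝓝 x₀, x.2 ∈ ch.base _ →
        v x ∈ (ch.sdψ S Λ n).B x ∧ v x ∉ (ch.sdψ S Λ n).N x) ∧ ∀ j r, AnalyticAt ℂ (Φ j r) x₀ ∧
        ∀ᶠ x in 𝓝 x₀, (x, v x) ∈ jD F n j r → jF n j r (x, v x) = Φ j r x := by
  obtain ⟨v, Φ, h1, h2, h3⟩ := JetA.main hc n hx
  refine ⟨v, Φ, h1, h2.mono fun x a b => ?_,
    fun j r => ⟨(h3 j r).1, (h3 j r).2.mono fun x a b => ?_⟩⟩
  · obtain ⟨γ, k1, k2, k3⟩ := a b
    rw [k3]
    exact ⟨Submodule.subset_span ⟨γ, k1.holo, k1.mem, k2, rfl⟩, notMem_sdψ_N k1 k2⟩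
  · rw [a _ 1 b (by rw [one_smul, sub_self]; exact zero_mem _), one_pow, one_mul]

theorem continuousOn_jF (j : J) (r : ℕ) :
    ContinuousOn (jF n j r : ch.WF ν κ Λ × V ch.M → ℂ) (jD F n j r) := fun q hq => by
  obtain ⟨v, Φ, h1, h2, h3⟩ := JetA.main hc n hq.1
  obtain ⟨h3, h4⟩ := h3 j r
  obtain ⟨γ, k1, k2, k3⟩ := h2.self_of_nhds hq.1.1.2.1
  have t : ContinuousAt (fun z : ch.WF ν κ Λ × V ch.M => z.1) q := continuousAt_fst
  obtain ⟨α, a1, a2⟩ := exists_coef (T := ch.WF ν κ Λ × V ch.M) (c := fun z => z.1.2.p n ch.o)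
    (d := fun z => v z.1 ch.o) (w := fun z => z.2 ch.o) (t₀ := q)
    (continuousAt_pi.1 ((W.an_p analyticAt_snd n).continuousAt.comp t) ch.o)
    (continuousAt_pi.1 (h1.continuousAt.comp t) ch.o) (continuousAt_pi.1 continuousAt_snd ch.o)
    (by rw [← k2, k3]; exact k1.imm)
  have e : ∀ᶠ z in 𝓝 q, z ∈ jD F n j r → jF n j r z = α z ^ r * Φ j r z.1 := by
    filter_upwards [t.eventually h2, t.eventually h4, a2] with z b1 b2 b3 b4
    obtain ⟨δ, l1, l2, l3⟩ := b1 b4.1.1.2.1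
    obtain ⟨a, l4⟩ := (mem_sdψ_B b4.1.1.2.1 l1 l2).1 b4.2.2.1
    rw [← l3] at l4
    obtain ⟨b, l5⟩ := mem_sdψ_N.1 l4
    rw [← b3 a (b ch.o) (congrFun l5 ch.o)]
    exact b2 _ a b4 l4
  exact ((a1.pow r).mul (h3.continuousAt.comp t)).continuousWithinAt.congr_of_eventuallyEq_of_mem
    (eventually_nhdsWithin_iff.2 e) hq

end Vale.Agent.P269.Ch
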