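import Vale.Agent.P269.Map.SQ
import Vale.Agent.P269.Ch.Proj

/-!
# Trivialising a line bundle
-/

namespace Vale.Agent.P269.Ch

open Set Function Topology Filter P291Z

theorem VB.isHomeomorph_pp {Y : Sp} (E : VB Y) (h : E.r = 1) : IsHomeomorph E.pp.map := by
  have k : ∀ t, ∀ w ∈ E.F t, w ≠ 0 → ∀ w' ∈ E.F t, ∃ z : ℂ, z • w = w' := fun t w a b w' c =>
    let ⟨z, e⟩ := (finrank_eq_one_iff_of_nonzero' (⟨w, a⟩ : E.F t)
      fun e => b (congrArg Subtype.val e)).1 ((E.rank t).trans h) ⟨w', c⟩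
    ⟨z, congrArg Subtype.val e⟩
  refine isHomeomorph_iff_continuous_isClosedMap_bijective.2 ⟨E.pp.map.continuous,
    E.isPr_pp.isProperMap.isClosedMap, fun x y e => ?_, fun y => ?_⟩
  · obtain ⟨x, rfl⟩ := E.PS.surj x
    obtain ⟨y, rfl⟩ := E.PS.surj y
    rw [Mor.map_π, Mor.map_π] at e
    obtain ⟨g, hg : g • VB.PT.t x = VB.PT.t y⟩ := (Y.fib _ _).1 e
    obtain ⟨z, hz⟩ := k _ _ (hg ▸ E.inv g _ _ (VB.PT.mem x))
      ((smul_ne_zero_iff_ne g).2 (VB.PT.ne x)) _ (VB.PT.mem y)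
    exact (E.PS.fib _ _).2 ⟨(g, Units.mk0 z fun e => VB.PT.ne y (by rw [← hz, e, zero_smul])),
      VB.PT.ext hg hz⟩
  · obtain ⟨t, rfl⟩ := Y.surj y
    obtain ⟨w, a, b⟩ := Submodule.exists_mem_ne_zero_of_ne_bot (p := E.F t) fun e => by
      have := E.rank t
      rw [e, finrank_bot, h] at this
      exact zero_ne_one this
    exact ⟨E.PS.π (VB.PT.mk t w a b), Mor.map_π _ _⟩

variable {A W P : Type} [NormedRing A] [NormedAlgebra ℂ A] [NormedAddCommGroup W] [NormedSpace ℂ W]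
  [NormedAddCommGroup P] [NormedSpace ℂ P] {act : A → W → W} {S : Set W} [Holo.IsAct act S]

/-- The points of `Y'` are the points `x` of `S` with a generator `v` of the line `B x / N x`. -/
structure SD.Fr (E : SD A W P) (ho : Orb.Orb Aˣ (Holo.Sp act S)) (Y' : Sp) (m : Mor Y' (spA ho))
    (χ : Y'.G →ₜ* ℂˣ) (v : Y'.T → P) : Prop where
  hom : IsHomeomorph m.map
  eu : H.map m.map (hcls (E.eu act S)) = -(c1 χ).1
  cont : Continuous v
  mem : ∀ t, v t ∈ E.B (Holo.Sp.val (act := act) (m.f t))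
  ne : ∀ t, v t ∉ E.N (Holo.Sp.val (act := act) (m.f t))
  eqv : ∀ g t, v (g • t) - (χ g : ℂ) • E.ρ (Units.val (m.ρ g)) (v t) ∈
    E.N (Holo.Sp.val (act := act) (m.f (g • t)))
  lift : ∀ {T : Type} [TopologicalSpace T] (O : Set T) (x : T → Holo.Sp act S) (u : T → P),
    O.Nonempty → ContinuousOn x O → ContinuousOn u O → (∀ z ∈ O, u z ∈ E.B (x z).val) →
    (∀ z ∈ O, u z ∉ E.N (x z).val) → ∃ φ : T → Y'.T, ContinuousOn φ O ∧
      ∀ z ∈ O, m.f (φ z) = x z ∧ v (φ z) - u z ∈ E.N (x z).val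

theorem SD.Ok.exists_fr {E : SD A W P} {r : ℕ} (h : E.Ok act S (r + 1) r)
    (ho : Orb.Orb Aˣ (Holo.Sp act S)) : ∃ Y' m χ v, E.Fr ho Y' m χ v := by
  classical
  obtain ⟨E₀, E₁, ι, M, -, h1, h2, -, h3⟩ := h.exists_isMod ho
  rw [Nat.add_sub_cancel_left] at h1
  obtain ⟨σ, s1, s2⟩ := h2.hom.exists_sect h2.surj
  have s3 : ∀ x : E₁.PT, σ x.t x.w ∈ E₀.F x.t := fun x => s1.mem _ _ x.mem
  refine ⟨E₁.PS, E₁.pp, E₁.o1, fun x : E₁.PT => ι (σ x.t x.w), E₁.isHomeomorph_pp h1, ?_,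
    h2.emb.continuous.comp (s1.continuous VB.PT.continuous_t VB.PT.continuous_w VB.PT.mem),
    fun x => h2.mem (s3 x), fun x e => VB.PT.ne x ((s2 _ _ (VB.PT.mem x)).symm.trans
      ((h2.ker _ _ (s3 x)).2 e)), fun g (x : E₁.PT) => ?_, fun O x u ⟨z₀, h0⟩ hx hu hB hN => ?_⟩
  · exact (congrArg _ (hcls_presA ho h2)).trans (congrArg Subtype.val ((E₁.eu_pb E₁.pp).symm.trans
      ((Iso.of_inj E₁.hom_taut (fun t z _ => E₁.taut_inj t z) h1.symm).eu'.symm.trans (c1_inv _))))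
  · have e : ι (σ (g.1 • x.t) ((g.2 : ℂ) • g.1 • x.w)) = (g.2 : ℂ) • E.ρ g.1.val (ι (σ x.t x.w)) := by
      rw [map_smul, map_smul, s1.eqv g.1 _ _ x.mem]
      exact congrArg _ (h3 _ _)
    exact (sub_eq_zero.2 e).symm ▸ zero_mem _
  · choose w w1 w2 using fun z : O => (h2.map (x z)).ge (hB z z.2)
    have c1 : Continuous fun z : O => x z := hx.domRestrict
    have c2 : Continuous w := h2.emb.continuous_iff.2
      (hu.domRestrict.congr fun z => (w2 z).symm)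
    have w3 : ∀ z : O, M (x z) (w z) ≠ 0 := fun z e => hN z z.2 (w2 z ▸ (h2.ker _ _ (w1 z)).1 e)
    let ψ : O → E₁.PT := fun z => VB.PT.mk (x z) (M (x z) (w z)) (h2.hom.mem _ _ (w1 z)) (w3 z)
    obtain ⟨φ, e⟩ : ∃ φ : _ → E₁.PT, ∀ z : O, φ z.1 = ψ z :=
      ⟨extend Subtype.val ψ fun _ => ψ ⟨z₀, h0⟩, Subtype.val_injective.extend_apply _ _⟩
    refine ⟨φ, continuousOn_iff_continuous_domRestrict.2
      ((VB.PT.continuous_mk c1 (h2.hom.continuous c1 c2 w1) _ _).congr fun z => (e z).symm),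
      fun z hz => ⟨congrArg VB.PT.t (e ⟨z, hz⟩), ?_⟩⟩
    have := (h2.map_eq_iff (s3 (ψ ⟨z, hz⟩)) (w1 ⟨z, hz⟩)).1 (s2 _ _ (ψ ⟨z, hz⟩).mem)
    rw [w2] at this
    exact (congrArg (fun y : E₁.PT => ι (σ y.t y.w) - u z ∈ E.N (x z).val) (e ⟨z, hz⟩)).mpr this

end Vale.Agent.P269.Ch
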