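import Vale.Agent.P269.G3.Nd
import Vale.Agent.P269.G3.Num
import Vale.Agent.P269.Asm.Mon
import Vale.Agent.P269.Bas.Ok
import Vale.Agent.P269.Bas.Norm
import Vale.Agent.P269.Deg.InB

/-!
# The invariants of a cap
-/

set_option linter.unusedSectionVars false

namespace Vale.Agent.P269

open P291Z Set Function Fock Finset.HasAntidiagonal

namespace G3Asm

variable {V : Type} [AddCommGroup V] [Module ℂ V] {p : Par ℂ V}

theorem conv {Γ : Type} [AddCommGroup Γ] {C Z : Deg.Ser Γ p} {φ : Γ} (e : ℕ) (j : ℤ)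
    (y : Fock.S (p.prod p)) (inj : Injective fun a : ℕ => a • φ)
    (hC : ∀ β x, ∃ J, ∀ j < J, C β j x = 0) (hZ : ∀ β x, ∃ J, ∀ j < J, Z β j x = 0)
    (h : ∀ β i i', C β i ≠ 0 → Z (e • φ - β) i' ≠ 0 → ∃ a ≤ e, β = a • φ) :
    ∑ᶠ q : Γ × ℤ, Deg.tp (C q.1 q.2) (Z (e • φ - q.1) (j - q.2)) y =
      ∑ q ∈ antidiagonal e, ∑ᶠ i, Deg.tp (C (q.1 • φ) i) (Z (q.2 • φ) (j - i)) y := by
  classical
  have k : ∀ β i, Deg.tp (C β i) (Z (e • φ - β) (j - i)) y ≠ 0 → ∃ a ≤ e, β = a • φ := fun β i a =>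
    h β i _ (fun c => a (Deg.InB.tp_zero (.inl c) _)) fun c => a (Deg.InB.tp_zero (.inr c) _)
  rw [finsum_curry _ (((finite_Iic e).biUnion fun a _ => (Deg.InB.tp_fin (hC (a • φ))
    (hZ (e • φ - a • φ)) j y).image fun i => (a • φ, j - i)).subset ?_),
    finsum_eq_sum_of_support_subset (s := (antidiagonal e).image fun q => q.1 • φ),
    Finset.sum_image fun _ a _ c d => (antidiagonal_congr a c).2 (inj d)]
  · refine Finset.sum_congr rfl fun q a => ?_
    simp only [← mem_antidiagonal.1 a, add_smul, add_sub_cancel_left]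
  · intro β a
    obtain ⟨i, c⟩ := not_forall.1 (mt finsum_eq_zero_of_forall_eq_zero a)
    obtain ⟨n, d, rfl⟩ := k β i c
    exact Finset.mem_coe.2 (Finset.mem_image.2
      ⟨(n, e - n), mem_antidiagonal.2 (Nat.add_sub_cancel' d), rfl⟩)
  · rintro ⟨β, i⟩ a
    obtain ⟨n, d, rfl⟩ := k β i a
    exact mem_biUnion (x := n) d ⟨j - i, by simpa using a, by simp⟩

theorem nn_eq_zero {D : Deg.Dv} {Z : Fock.S (Deg.pR p D) →ₗ[ℂ] ℂ}
    (h : ∀ l₁ l₃, Z (monR p D l₁ [] l₃) = 0) :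
    Z ∘ₗ (Fock.map _ (Deg.isEv_nn p D)).toLinearMap = 0 := by
  have e : IsEv (Deg.pR p D) (Deg.pR p D)
      (((LinearMap.inl ℂ _ _) ∘ₗ (LinearMap.fst ℂ _ _)).prodMap .id) := fun _ =>
    Prod.ext (Prod.ext rfl rfl) rfl
  have k : Z ∘ₗ (Fock.map _ e).toLinearMap = 0 := monR_ext fun l₁ l₂ l₃ => by
    rcases l₂ with _ | ⟨a, l₂⟩
    · refine (congrArg Z ?_).trans (h l₁ l₃)
      simp [monR, monT, map_list_prod, List.map_map, comp_def, Prod.mk_zero_zero]
    · simp [monR, monT_cons', Prod.mk_zero_zero]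
  refine LinearMap.ext fun x => Eq.trans (congrArg Z ?_)
    (LinearMap.congr_fun k (Fock.map _ (Deg.isEv_nn p D) x))
  exact DFunLike.congr_fun (hom_ext (f := Fock.map _ (Deg.isEv_nn p D))
    (g := (Fock.map _ e).comp (Fock.map _ (Deg.isEv_nn p D))) fun v => by simp) x

variable {S Λ R J K : Type} [Fintype S] [Fintype Λ] [Fintype R] [Fintype J] [Fintype K]
  [DecidableEq R] {F : Fam S Λ R J K} {δ : J → ℕ} {k : ℕ} {A A' : Set ((Λ → ℂ) × (J → ℂ))}
  {d : R → ℤ} {j : ℤ}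

theorem cor_conn (hN : F.Nice δ) (hk : F.Big k) (hj : j < -1) (l₁ l₃) :
    F.cor k F.exC δ A A' d j l₁ [] l₃ = 0 := by_contra fun h => by
  rw [F.cor_eq] at h
  obtain ⟨⟨m, -, -, a, c⟩, -⟩ := St.supp F δ k _ d _ _ _ hN hk h
  have := a.1 ▸ AC.Conn.gen_nonneg c
  simp only [List.length_nil] at this
  omega

theorem cor_neg (hN : F.Nice δ) (hk : F.Big k) (hj : j < 0) (e : F.Ex) :
    F.cor k e δ A A' 0 j [] [] [] = 0 := by_contra fun h => by
  obtain ⟨⟨m, -, a, c⟩, -⟩ := Fam.cor_supp St.supp hN hk h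
  have := St.low m _ _ _ a c
  simp at this
  omega

theorem exists_sol (hN : F.Nice δ) (hk : F.Big k) {e : F.Ex} {i : V →ₗ[ℂ] H (F.X A)} {D : Deg.Dv}
    {i' : D.H →ₗ[ℂ] H (F.X A')} (h : F.serR k e p i δ D i' d j ≠ 0) :
    ∃ (ν κ : Type) (_ : Fintype ν) (_ : Fintype κ) (m : AM Λ R J ν κ) (g : ℤ),
      m.Sol F ∧ m.Typ g d := by_contra fun a => h (Fam.serR_eq_zero fun _ _ _ => by_contra fun c =>
  let ⟨⟨m, b, _, t⟩, _⟩ := Fam.cor_supp St.supp hN hk c
  a ⟨_, _, inferInstance, inferInstance, m, _, b, t⟩)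

end G3Asm

theorem St.g3 (hW : St.Well) (hS : St.Spec) (hR : St.Res) (hO : St.OkR) (hP : St.ProdR) :
    St.G3 := by
  intro Λ R J K _ _ _ _ _ _ F l b ρ I φ χ K₀ k A' h D ε P i i' Z _ π g en s N hC hk e' hH hg hen hN
    j₀ M hj hw hM
  have n := hC.nice
  obtain ⟨o0, oC⟩ : F.ExOk k F.ex0 ∧ F.ExOk k F.exC :=
    St.selC F k 1 univ 1 n.toGood hk (subset_univ _) (one_mem _)
  have ez := hH.ev.comp P.hnul
  have rel : ∀ e, F.ExOk k e → (F.serR k e P.p i (Pi.single b 1) D i').RelR ⟨g.deg, en⟩ :=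
    fun e he => (hO F b k e P.toCoh i D i' ⟨g.deg, en⟩ n hC.cp hk he Subset.rfl e' hH.ev hH.ev' hg
      ((hC.base b).2 rfl).1 ((hC.base b).2 rfl).2).2 hen
  have nat : ∀ e, F.ExOk k e → F.serR0 k e P.pz (i ∘ₗ P.nul) (Pi.single b 1) D i' = fun d j =>
      F.serR k e P.p i (Pi.single b 1) D i' d j ∘ₗ (Fock.map _ P.isEv_far).toLinearMap :=
    fun e he => funext₂ fun d j => LinearMap.ext fun x => (LinearMap.congr_fun
      (Fam.serR_nat hS n hC.cp hk he Subset.rfl e' hH.ev P.hnul hH.ev' (f' := .id)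
        (fun _ => rfl) d j) _).trans (congrArg _ (DFunLike.congr_fun (hom_ext
          (f := (Fock.map _ _).comp (Fock.map _ _)) fun v => by simp) x))
  have eff : ∀ {e d j}, F.serR k e P.p i (Pi.single b 1) D i' d j ≠ 0 → 0 ≤ χ ⬝ᵥ d ∧
      (χ ⬝ᵥ d = 0 → d = en d • φ ∧ 0 ≤ en d) ∧ N * (g.deg d - s * en d) = χ ⬝ᵥ d := fun {e d j} a => by
    obtain ⟨ν, κ, _, _, m, g', a, c⟩ := G3Asm.exists_sol n hk a
    have e0 : F.w j₀ ⬝ᵥ d = 0 := by
      rw [← Fam.Cap.deg_eq c, Cv.degOn_univ]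
      exact Cv.deg_of_ne (a.2.1 j₀).1 fun z => hj _ (a.2.2 z)
    exact ⟨(hC.eff a c).1, hen d ▸ (hC.eff a c).2, by rw [← hM d, e0, mul_zero, add_zero]⟩
  have eφ : en φ = 1 := (hen φ).trans hC.wb
  have eφ' : ∀ a : ℕ, en (a • φ) = a := fun a => by rw [map_nsmul, eφ, nsmul_one]
  have sp := fun e he => (hS F _ k e P.p i n hC.cp hk he Subset.rfl hH.ev).2 D i' e' hH.ev'
  refine ⟨⟨φ, eφ, ?_, fun β a => ?_, fun β a c => ?_, fun e j =>
    F.serR k F.exC P.p i (Pi.single b 1) D i' (e • φ) j ∘ₗ (Fock.map _ P.isEv_far).toLinearMap,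
    fun e j x => ?_, fun e j a => ?_, fun e j x => ?_, fun e j v x => ?_, fun j a => ?_,
    fun y a => ?_⟩⟩
  · have := hM φ
    rw [hw, hC.χφ, eφ, mul_zero, add_zero, mul_one, mul_eq_zero, sub_eq_zero] at this
    exact this.resolve_left (by omega)
  · obtain ⟨j, a⟩ := ne_iff.1 a
    obtain ⟨c, -, d⟩ := eff a
    exact sub_nonneg.1 (nonneg_of_mul_nonneg_right (d ▸ c) (by omega))
  · obtain ⟨j, a⟩ := ne_iff.1 a
    exact ((eff a).2.1 (by rw [← (eff a).2.2, c, sub_self, mul_zero])).1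
  · exact (congrArg _ (par_map _ _ x).symm).trans ((rel _ oC).ev _ _ _)
  · refine (congrFun₂ (nat _ oC) _ _).symm.trans (G3Asm.nn_eq_zero fun l₁ l₃ => ?_)
    rw [(hS F _ k _ P.pz _ n hC.cp hk oC Subset.rfl ez).2 D i' e' hH.ev']
    exact G3Asm.cor_conn n hk a _ _
  · have k : IsEv ((P.pz.fs ℕ).prod (D.p.fs ℕ)) ((P.pz.fs ℕ).prod (D.p.fs ℕ))
        ((0 : Module.End ℂ _).prodMap (Deg.enO D.H)) := fun v =>
      Prod.ext (by simp) (congrArg Prod.snd (ok_isEv_enO (p := P.p) D (0, v.2)) :)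
    refine (congrArg _ (Deg.InB.dv_map k (ok_isEv_enO D) P.isEv_far
      (fun v => by simp [Prod.mk_zero_zero]) x).symm).trans (((rel _ oC).en _ _ _).trans ?_)
    exact congrArg (· * _) ((congrArg _ (eφ' e)).trans (Int.cast_natCast e))
  · have := (hP F _ l k P.pz _ D i' n hC.B hk Subset.rfl e' ez hH.ev' (e • φ) j v x).trans
      (G3Asm.conv e j _ (fun a c d => Nat.cast_injective (R := ℤ)
        ((eφ' a).symm.trans ((congrArg en d).trans (eφ' c))))
        (fun β x => by rw [nat _ oC]; exact (rel _ oC).low β _)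
        (fun β x => by rw [nat _ o0]; exact (rel _ o0).low β _) fun β a c h1 h2 => ?_)
    · rwa [nat _ o0, nat _ oC] at this
    rw [nat _ oC] at h1
    rw [nat _ o0] at h2
    obtain ⟨a1, a2, -⟩ := eff fun k => h1 ((congrArg (· ∘ₗ _) k).trans (LinearMap.zero_comp _))
    obtain ⟨c1, c2, -⟩ := eff fun k => h2 ((congrArg (· ∘ₗ _) k).trans (LinearMap.zero_comp _))
    rw [dotProduct_sub, dotProduct_smul, hC.χφ, map_sub, eφ'] at c2
    rw [dotProduct_sub, dotProduct_smul, hC.χφ] at c1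
    obtain ⟨a3, a4⟩ := a2 (by simp at c1; omega)
    obtain ⟨m, a5⟩ := Int.eq_ofNat_of_zero_le a4
    have := (c2 (by simp at c1 ⊢; omega)).2
    exact ⟨m, by simp at this; omega, by rw [a3, a5, natCast_zsmul]⟩
  · have := sp _ o0 0 j [] [] []
    rw [show monR P.p D [] [] [] = 1 by simp [monR, monT]] at this
    rw [this]
    split_ifs with c
    · exact c ▸ (St.norm F _ k 1 _ _ l n hC.B hk).trans (map_one _)
    · exact G3Asm.cor_neg n hk (by omega) _
  · have k : ∀ m t z a, F.T2 k b φ (m + 1) t (i (P.nul z)) (F.rs e' (i' a)) =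
        F.serR k F.exC P.p i (Pi.single b 1) D i' ((m + 1) • φ) (-1) (Fock.map _ P.isEv_far
          (ι _ (Finsupp.single t z, 0) * ι _ (0, Finsupp.single m a))) := fun m t z a => by
      rw [show Fock.map _ P.isEv_far _ = monR P.p D [(t, P.nul z)] [] [(m, a)] by
        simp [monR, monT, Prod.mk_zero_zero], sp _ oC, hR F _ k _ Subset.rfl e' n hC.cp hk oC]
      simp only [List.map, Prod.map, id, Wt.rs_self]
      rfl
    have := hC.nd hk hW h e' hH.fib hH.far (y.mapRange i' (map_zero _)) (fun m => hH.span _)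
      fun t s => by
        obtain ⟨z, c⟩ := hH.nul s
        rw [← c, Finsupp.sum_mapRange_index fun m => by
          simpa [Prod.mk_zero_zero] using k m t z 0]
        exact (Finsupp.sum_congr fun m _ => k m t z _).trans (a _)
    exact Finsupp.ext fun m => hH.inj' ((DFunLike.congr_fun this m).trans (map_zero _).symm)

end Vale.Agent.P269
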