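import Vale.Agent.P269.G3.Defs
import Vale.Agent.P269.Qrr.PrC
import Vale.Agent.P269.WK.PrS
import Vale.Agent.P269.LG.Sub
import Vale.Agent.P269.Bas.Num
import Vale.Agent.P269.Bas.Rel
import Vale.Agent.P269.Bas.SpA

/-!
# The product formula for relative invariants
-/

set_option linter.unusedSectionVars false

namespace Vale.Agent.P269

open P291Z Set Function Filter Fock LG P269.Num

theorem FSum.fin {α β : Type} [Fintype β] {g : α × β → ℂ} {c : ℂ} (h : FSum g c) :
    FSum (fun a => ∑ b, g (a, b)) c :=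
  ⟨(h.1.image Prod.fst).subset fun _ ha => by_contra fun e =>
      ha (Finset.sum_eq_zero fun _ _ => by_contra fun d => e ⟨_, d, rfl⟩),
    h.2.trans ((finsum_curry _ h.1).trans (finsum_congr fun _ => finsum_eq_sum_of_fintype _))⟩

namespace PrR

variable {Λ R J K ν ν' V : Type} [Fintype Λ] [Fintype R] [Fintype J] [Fintype K] [Fintype ν]
  [Fintype ν'] [AddCommGroup V] [Module ℂ V] (p : Par ℂ V) (D : Deg.Dv)

/-- The insertion of shape `s`: descendant or relative. -/
noncomputable def emb (s : ℕ ⊕ ℕ) : V × D.H →ₗ[ℂ] VV V × VV D.H :=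
  s.elim (fun m => (Finsupp.lsingle m).prodMap 0) fun m => (0 : V →ₗ[ℂ] _).prodMap (Finsupp.lsingle m)

theorem isEv_emb (s : ℕ ⊕ ℕ) : IsEv (p.prod D.p) ((p.fs ℕ).prod (D.p.fs ℕ)) (emb D s) := by
  intro w
  cases s <;> simp [emb]

theorem span_emb :
    Submodule.span ℂ (range fun y : (ℕ ⊕ ℕ) × V × D.H => emb D y.1 y.2) = ⊤ := by
  rw [eq_top_iff]
  rintro ⟨a, b⟩ -
  rw [← Prod.fst_add_snd (a, b)]
  refine add_mem ?_ ?_
  · induction a using Finsupp.induction_linear with
    | zero => exact zero_mem _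
    | add x y hx hy => simpa using add_mem hx hy
    | single m v => exact Submodule.subset_span ⟨(.inl m, v, 0), rfl⟩
  · induction b using Finsupp.induction_linear with
    | zero => exact zero_mem _
    | add x y hx hy => simpa using add_mem hx hy
    | single m v => exact Submodule.subset_span ⟨(.inr m, 0, v), rfl⟩

/-- The monomial of labelled insertions. -/
noncomputable def mo (sh : ν → ℕ ⊕ ℕ) (L : List (ν × V × D.H)) :
    Fock.S ((p.fs ℕ).prod (D.p.fs ℕ)) := (L.map fun x => ι _ (emb D (sh x.1) x.2)).prod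

theorem sw_mo {U : Type} [AddCommGroup U] [Module ℂ U] {p : Par ℂ V} {q : Par ℂ U}
    (f : ν → V →ₗ[ℂ] U) (hf : ∀ n, IsEv p q (f n)) (Z : Fock.S q →ₗ[ℂ] ℂ) :
    SW p fun L : List (ν × V) => Z (L.map fun x => ι q (f x.1 x.2)).prod := by
  simpa only [one_mul, LinearMap.comp_apply] using SW.of_sc (p := p) (fun n => ι q ∘ₗ f n)
    (fun _ n _ w h => (sc_ι q).ev _ _ ((hf n w).trans (congrArg _ h)))
    (fun n n' v w h h' => (sc_ι q).od _ _ ((hf n v).trans (by rw [h, map_neg]))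
      ((hf n' w).trans (by rw [h', map_neg]))) Z 1

theorem flat_one {α β : Type} (f : α → β) {L : List α} :
    (L.map fun x => [f x]).flatten = L.map f := by
  induction L <;> simp_all

theorem diag_mo (sh : ν → ℕ ⊕ ℕ) (L : List (ν × V × D.H)) :
    Fock.map _ (Deg.isEv_diag _) (mo p D sh L) =
      (L.map fun y => ι _ (emb D (sh y.1) y.2, 0) + ι _ (0, emb D (sh y.1) y.2)).prod := by
  rw [mo, map_list_prod, List.map_map]
  exact congrArg _ (List.map_congr_left fun y _ => by simp [← map_add])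

/-- The contact order. -/
def od (s : ℕ ⊕ ℕ) : ℕ := s.elim 0 (· + 1)

variable {p D} {F : Fam Empty Λ R J K} {A A' : Set ((Λ → ℂ) × (J → ℂ))}
  (i : V →ₗ[ℂ] H (F.X A)) (i' : D.H →ₗ[ℂ] H (F.X A'))

/-- The factors of an insertion. -/
noncomputable def fac (s : ℕ ⊕ ℕ) (n : ν) (w : V × D.H) : List (Fac F.toWt ν (Fin 0)) :=
  s.elim (fun m => List.replicate m (.psi (.inl n)) ++ [.ev (.inl n) A (i w.1)])
    fun _ => [.ev (.inl n) A' (i' w.2)]

/-- The factors of labelled insertions. -/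
noncomputable def facs (sh : ν → ℕ ⊕ ℕ) (L : List (ν × V × D.H)) : List (Fac F.toWt ν (Fin 0)) :=
  (L.map fun x => fac i i' (sh x.1) x.1 x.2).flatten

theorem facs_append (sh : ν → ℕ ⊕ ℕ) (L L' : List (ν × V × D.H)) :
    facs i i' sh (L ++ L') = facs i i' sh L ++ facs i i' sh L' := by
  rw [facs, List.map_append, List.flatten_append, facs, facs]

theorem facs_re (a : ν' → ν) (sh : ν → ℕ ⊕ ℕ) (L : List (ν' × V × D.H)) :
    facs i i' sh (L.map (Prod.map a id)) = (facs i i' (fun n => sh (a n)) L).map (Fac.re a id) := by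
  rw [facs, facs, List.map_flatten, List.map_map, List.map_map]
  refine congrArg _ (List.map_congr_left fun x _ => ?_)
  change fac i i' (sh (a x.1)) (a x.1) x.2 = (fac i i' (sh (a x.1)) x.1 x.2).map _
  cases sh (a x.1) <;> simp [fac, Fac.re]

variable {i i'} {δ : J → ℕ} {k : ℕ}

theorem forall_facs {sh : ν → ℕ ⊕ ℕ} {L : List (ν × V × D.H)} {P : Fac F.toWt ν (Fin 0) → Prop}
    (h₁ : ∀ n, P (.psi n)) (h₂ : ∀ n c, P (.ev n A c))
    (h₃ : ∀ n m c, sh n = .inr m → P (.ev (.inl n) A' c)) : ∀ f ∈ facs i i' sh L, P f := by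
  intro f hf
  obtain ⟨_, a, hf⟩ := List.mem_flatten.1 hf
  obtain ⟨x, -, rfl⟩ := List.mem_map.1 a
  rcases e : sh x.1 with m | m <;> rw [e] at hf
  · rcases List.mem_append.1 hf with b | b
    · exact List.eq_of_mem_replicate b ▸ h₁ _
    · exact List.mem_singleton.1 b ▸ h₂ _ _
  · exact List.mem_singleton.1 hf ▸ h₃ _ m _ e

theorem dq_facs (sh : ν → ℕ ⊕ ℕ) (L : List (ν × V × D.H)) :
    (facs i i' sh L).filterMap Fac.dq = [] :=
  List.eq_nil_iff_forall_not_mem.2 fun q _ => q.elim0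

variable [DecidableEq R]

variable (F δ k p) (i i') in
/-- The standing hypotheses. -/
structure Ok : Prop where
  nice : F.Nice δ
  cp : F.Cp
  big : F.Big k
  hA : F.cone ⊆ A
  hA' : F.dvs δ ⊆ A'
  hi : IsEv p (parH _) i
  hi' : IsEv D.p (parH _) i'

variable (F δ k) (i i') in
/-- The invariants with labelled insertions. -/
noncomputable def W (g : ℤ) (d : R → ℤ) (sh : ν → ℕ ⊕ ℕ) (P : AM Λ R J ν (Fin 0) → Prop)
    (L : List (ν × V × D.H)) : ℂ :=
  F.inv k g d (fun n => od (sh n) • δ) P (.tw 1 :: facs i i' sh L)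

namespace Ok

variable (h : Ok p F i i' δ k) {g : ℤ} {d : R → ℤ} {sh : ν → ℕ ⊕ ℕ}
  {P : AM Λ R J ν (Fin 0) → Prop}
include h

theorem ok_rel {n : ν} {m : ℕ} (e : sh n = .inr m) (c) :
    Fac.Ok F (fun n => od (sh n) • δ) (.ev (.inl n) A' c : Fac F.toWt ν (Fin 0)) := fun _ hz =>
  h.hA' ⟨hz.1, fun j hj => hz.2 _ rfl j (by
    simp only [e]
    exact mul_ne_zero (Nat.succ_ne_zero m) hj)⟩

theorem ok (L : List (ν × V × D.H)) :
    ∀ f ∈ facs i i' sh L, f.Ok F (fun n => od (sh n) • δ) ∧ f.NoTw :=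
  forall_facs (fun _ => ⟨trivial, trivial⟩) (fun _ _ => ⟨fun _ a => h.hA a.1, trivial⟩)
    fun _ _ c e => ⟨h.ok_rel e c, trivial⟩

theorem iv (hP : F.Sel k g d (fun n => od (sh n) • δ) P) (L : List (ν × V × D.H)) :
    F.Iv δ k g d (fun n => od (sh n)) P (.tw 1 :: facs i i' sh L) :=
  ⟨h.nice, h.cp, h.big, hP, List.forall_mem_cons.2 ⟨trivial, fun f a => (h.ok L f a).1⟩,
    fun q => q.elim0⟩

theorem sw (hW : St.Well) (hP : F.Sel k g d (fun n => od (sh n) • δ) P) :
    SW (p.prod D.p) (W F i i' δ k g d sh P) := by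
  refine sw_of_eventually ((F.eventually_bigD k).mono fun E a => ?_)
    fun L => (h.iv hP L).nf hW St.dg
  have z := h.nice.gz (Fin 0) h.big a g d fun n => od (sh n)
  have : ∀ n, ∃ f : V × D.H →ₗ[ℂ] H _, IsEv (p.prod D.p) (parH _) f ∧ ∀ w,
      ((fac i i' (sh n) n w).map (F.cn (F.Zs (Fin 0) k E g d fun n => od (sh n) • δ))).prod =
        f w := fun n => by
    rcases e : sh n with m | m
    · have b : ∀ x ∈ F.Zs (Fin 0) k E g d fun n => od (sh n) • δ, Ch.vl x (.inl n) ∈ A :=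
        fun _ c => h.hA (Ch.vl_mem c.1 _)
      refine ⟨insL z _ b m ∘ₗ i ∘ₗ .fst .., fun w => (isEv_insL z _ b m _).trans
        (congrArg _ (h.hi _)), fun w => .trans ?_ (ins_eq z _ b (m, i w.1))⟩
      simp [fac, Fam.cn, ins]
    · have b := h.nice.at_of_ok (g := g) (d := d) h.big a (h.ok_rel e 0)
      refine ⟨insL z _ b 0 ∘ₗ i' ∘ₗ .snd .., fun w => (isEv_insL z _ b 0 _).trans
        (congrArg _ (h.hi' _)), fun w => .trans ?_ (ev_eq_insL z _ b (i' w.2))⟩
      simp [fac, Fam.cn]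
  choose f a b using this
  refine (congrArg _ (funext fun L => ?_)).mp (sw_of_isEv f a
    (F.itg (F.vir (Fin 0) k E g d fun n => od (sh n) • δ)) (hcls (ind (F.sel P)) * F.cl _ (.tw 1)))
  rw [Fam.clL_eq (List.nodup_iff_forall_not_duplicate.2 fun q => q.elim0), List.map_cons,
    List.prod_cons, facs, List.map_flatten, List.prod_flatten, List.map_map, List.map_map, mul_assoc]
  exact congrArg _ (congrArg _ (congrArg _
    (congrArg List.prod (List.map_congr_left fun x _ => (b _ _).symm))))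

variable {Q : ∀ ν κ : Type, AM Λ R J ν κ → Prop} (he : F.ExOk k ⟨Q, 1, univ, 1⟩) {j : ℤ}
include he

theorem ser_sum (hW : St.Well) {ν₁ ν₃ : Type} [Fintype ν₁] [Fintype ν₃] (m₁ : ν₁ → ℕ) (m₃ : ν₃ → ℕ)
    {L₁ : List (ν₁ × V × D.H)} {L₃ : List (ν₃ × V × D.H)} (h₁ : Enum L₁) (h₃ : Enum L₃) :
    F.serR0 k ⟨Q, 1, univ, 1⟩ p i δ D i' d j (mo p D (Sum.map m₁ m₃)
      (L₁.map (Prod.map .inl id) ++ L₃.map (Prod.map .inr id))) =
    W F i i' δ k (j + 1) d (Sum.map m₁ m₃) (Q _ _)
      (L₁.map (Prod.map .inl id) ++ L₃.map (Prod.map .inr id)) := by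
  have c : F.CorOk k ⟨Q, 1, univ, 1⟩ δ A A' := ⟨h.nice, h.cp, h.big, he, h.hA, h.hA'⟩
  have e₂ : Enum ([] : List (Fin 0 × ℕ × ℕ)) := ⟨List.nodup_nil, fun q => q.elim0⟩
  have a := (St.spec (St.cor hW (St.rel St.dg)) F δ k _ p i h.nice h.cp h.big he h.hA h.hi).2 D i'
    h.hA' h.hi' d j (L₁.map fun x => (m₁ x.1, x.2.1)) [] (L₃.map fun x => (m₃ x.1, x.2.2))
  have b := c.cor_eq d (St.rel St.dg) j (t := m₃) (h₁.map_snd fun x => (m₁ x.1, i x.2.1)) e₂
    (h₃.map_snd fun x => (m₃ x.1, i' x.2.2)) fun x hx => let ⟨_, _, e⟩ := List.mem_map.1 hx; e ▸ rfl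
  have u : (fun n => od (Sum.map m₁ m₃ n)) = Sum.elim (0 : ν₁ → ℕ) fun s => m₃ s + 1 :=
    funext fun n => by cases n <;> rfl
  simp only [List.map_map, Fintype.card_fin, Nat.cast_zero, sub_zero] at a b
  refine .trans (congrArg (F.serR k _ p i δ D i' d j) ?_) (a.trans (b.trans ?_))
  · simp only [mo, monR, monT, List.map_append, List.map_map, List.prod_append, map_mul,
      map_list_prod, comp_def, map_ι, List.map_nil, List.prod_nil, mul_one, AlgHom.toLinearMap_apply]
    rfl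
  · have v := h.iv (he.sel _ _ (j + 1) d _) (sh := Sum.map m₁ m₃)
      (L₁.map (Prod.map .inl id) ++ L₃.map (Prod.map .inr id))
    rw [W, show (fun n => od (Sum.map m₁ m₃ n) • δ) = _ from
      congrArg (fun (u : ν₁ ⊕ ν₃ → ℕ) n => u n • δ) u]
    rw [u] at v
    refine Fam.inv_eq_inv ?_
    filter_upwards [(c.iv (ν₁ := ν₁) d (j + 1) m₃ _ e₂ _).intg_eq St.dg, v.intg_eq St.dg, v.lvl]
      with E x y z
    rw [x, y]
    refine congrArg _ (congrArg _ (Fam.clL_congr (Subsingleton.elim _ _) ?_))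
    rw [show F.fsW _ A A' _ _ _ = .tw 1 :: .par univ 1 :: facs i i' (Sum.map m₁ m₃) _ from ?_,
      List.map_cons, List.map_cons, List.prod_cons, List.prod_cons, List.map_cons, List.prod_cons,
      show F.cn _ (.par univ 1) = 1 from z.gz.cl_par_one fun _ _ => trivial, one_mul]
    simp only [Wt.fsW, facs, List.map_append, List.map_map, comp_def, List.map_nil,
      List.flatten_nil, List.append_nil, List.flatten_append]
    rw [← flat_one (L := L₃)]
    rfl

theorem ser (hW : St.Well) {L : List (ν × V × D.H)} (hL : Enum L) :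
    F.serR0 k ⟨Q, 1, univ, 1⟩ p i δ D i' d j (mo p D sh L) =
      W F i i' δ k (j + 1) d sh (Q _ _) L := by
  classical
  refine (sw_mo (fun n => emb D (sh n)) (fun n => isEv_emb p D _) _).split
    (h.sw hW (he.sel _ _ _ _ _)) (Equiv.sumCompl fun n => (sh n).isLeft) (fun L₁ L₃ h₁ h₃ => ?_) hL
  generalize hφ : (Equiv.sumCompl fun n => (sh n).isLeft) = φ
  have e : (fun n => sh (φ n)) =
      Sum.map (fun n => (sh n.1).elim id id) fun n => (sh n.1).elim id id := by
    subst hφ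
    refine funext ?_
    rintro (⟨n, a⟩ | ⟨n, a⟩)
    · change sh n = .inl ((sh n).elim id id)
      generalize sh n = s at a ⊢
      cases s
      exacts [rfl, absurd a Bool.false_ne_true]
    · change sh n = .inr ((sh n).elim id id)
      generalize sh n = s at a ⊢
      cases s
      exacts [absurd rfl a, rfl]
  have a := h.ser_sum he (d := d) (j := j) hW (fun n => (sh n.1).elim id id)
    (fun n => (sh n.1).elim id id) h₁ h₃
  rw [← e] at a
  have u : L₁.map (Prod.map (fun n => φ (.inl n)) id) ++ L₃.map (Prod.map (fun n => φ (.inr n)) id) =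
      (L₁.map (Prod.map Sum.inl id) ++ L₃.map (Prod.map Sum.inr id)).map (Prod.map φ id) := by
    rw [List.map_append, List.map_map, List.map_map]
    rfl
  rw [u, W, facs_re, List.map_map]
  exact a.trans (St.rel St.dg F δ k (j + 1) d φ (.refl _) (fun n => od (sh n)) _ _ _
    (h.iv (he.sel _ _ _ _ _) _) (he.re _ _ _ _ _ _)).symm

omit he

theorem exC : F.ExOk k F.exC :=
  (St.selC F k 1 univ 1 h.nice.toGood h.big (subset_univ _) (one_mem _)).2

theorem ex0 : F.ExOk k F.ex0 :=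
  (St.selC F k 1 univ 1 h.nice.toGood h.big (subset_univ _) (one_mem _)).1

/-- the component of the point `n` carries the points in `M` -/
theorem sub [DecidableEq ν] (hP : St.PRc) (hW : St.Well) {l} (hl : F.B = {l}) (d₁ : R → ℤ) (j₁ : ℤ)
    {n : ν} {M : Finset ν} (hn : n ∈ M) {L : List (ν × V × D.H)} (hL : Enum L) :
    W F i i' δ k (j + 1) d sh (fun m => m.CTyp (m.p (.inl n)) (j₁ + 1) d₁ (.inl '' M)) L =
      Deg.tp (F.serR0 k F.exC p i δ D i' d₁ j₁) (F.serR0 k F.ex0 p i δ D i' (d - d₁) (j - j₁))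
        (L.map fun y => if y.1 ∈ M then ι _ (emb D (sh y.1) y.2, 0)
          else ι _ (0, emb D (sh y.1) y.2)).prod := by
  have s := sw_mo (fun n => (if n ∈ M then LinearMap.inl ℂ _ _ else LinearMap.inr ℂ _ _) ∘ₗ emb D (sh n))
    (fun n => IsEv.comp (by split_ifs; exacts [Deg.isEv_inl _ _, Deg.isEv_inr _ _])
      (isEv_emb p D _))
    (Deg.tp (F.serR0 k F.exC p i δ D i' d₁ j₁) (F.serR0 k F.ex0 p i δ D i' (d - d₁) (j - j₁)))
  refine ((h.sw hW (.of_same fun _ _ e => e.ctyp)).split s (Equiv.sumCompl (· ∈ M))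
    (fun L₁ L₂ h₁ h₂ => ?_) hL).trans (congrArg _ (congrArg _ (List.map_congr_left fun y _ => ?_)))
  · have a := hP F δ l k (j + 1) (j₁ + 1) (j - j₁ + 1) d d₁ (d - d₁) (Equiv.sumCompl (· ∈ M))
      (fun n => od (sh n)) ⟨n, hn⟩ 1 {()} _ _ _ _ h.nice hl h.big (by ring) (add_sub_cancel _ _)
      Qrr.cop_one (h.ok (sh := fun x => sh x.1) L₁) (h.ok (sh := fun x => sh x.1) L₂)
    rw [Finset.sum_singleton] at a
    rw [W, facs_append, facs_re, facs_re, show (.inl '' M : Set (Ch.Mk ν (Fin 0))) =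
      range fun x : {x // x ∈ M} => .inl x.1 from image_eq_range _ _]
    refine a.trans (.trans (congrArg₂ (· * ·) (h.ser h.exC hW h₁).symm (h.ser h.ex0 hW h₂).symm)
      ((Deg.InB.tp_ap ..).symm.trans (congrArg _ ?_)))
    rw [List.map_append, List.prod_append, mo, mo, map_list_prod, map_list_prod, List.map_map,
      List.map_map, List.map_map, List.map_map]
    congr 2 <;> refine List.map_congr_left fun x _ => ?_
    · simp [x.1.2]
    · simp [x.1.2]
  · split_ifs <;> rfl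

theorem fsum (hP : St.PRc) (hW : St.Well) {l} (hl : F.B = {l}) {x : ν × V × D.H}
    {L : List (ν × V × D.H)} (hL : Enum (x :: L)) :
    FSum (fun q : (R → ℤ) × ℤ => Deg.tp (F.serR0 k F.exC p i δ D i' q.1 q.2)
      (F.serR0 k F.ex0 p i δ D i' (d - q.1) (j - q.2))
        (ι _ (emb D (sh x.1) x.2, 0) * Fock.map _ (Deg.isEv_diag _) (mo p D sh L)))
      (F.serR0 k F.ex0 p i δ D i' d j (ι _ (emb D (sh x.1) x.2) * mo p D sh L)) := by
  classical
  have e : ∀ T : Set (Ch.Mk ν (Fin 0)), ∃! M : Finset ν, .inl '' (M : Set ν) = T := fun T =>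
    ⟨(Sum.inl ⁻¹' T).toFinset, (congrArg _ (coe_toFinset _)).trans
      (image_preimage_eq_of_subset fun y _ => y.rec mem_range_self fun q => q.1.elim0),
      fun M a => Finset.coe_injective (by
        rw [coe_toFinset, ← a, preimage_image_eq _ Sum.inl_injective])⟩
  have a := ((h.iv (h.ex0.sel _ _ (j + 1) d _) (sh := sh) (x :: L)).fs (St.add hW)
    (α := ((R → ℤ) × ℤ) × Finset ν)
    (Q := fun y m => m.CTyp (m.p (.inl x.1)) (y.1.2 + 1) y.1.1 (.inl '' y.2))
    (fun _ _ _ e => e.ctyp) (fun m => ?_) ?_).fin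
  · refine (congrArg₂ FSum (funext fun q => ?_) (h.ser h.ex0 hW hL).symm).mp a
    rw [diag_mo, hL.prod_cons fun y => ι _ (emb D (sh y.1) y.2, 0), map_sum]
    refine Finset.sum_congr rfl fun M _ => ?_
    split_ifs with c
    · exact h.sub hP hW hl q.1 q.2 c hL
    · rw [map_zero]
      by_contra b
      obtain ⟨m, -, -, -, b⟩ := (St.supp F δ k _ d _ _ _ h.nice h.big b).1
      exact c ((Sum.inl_injective.mem_set_image).1 ((b.2.2 _).1 fun _ a => a.2))
  · obtain ⟨g, d', T, b⟩ := m.exists_ctyp (m.p (.inl x.1))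
    obtain ⟨M, rfl, c⟩ := e T
    refine ⟨((d', g - 1), M), by simpa only [sub_add_cancel] using b, fun y f => ?_⟩
    obtain ⟨f, f', f''⟩ := f.unique b
    exact Prod.ext (Prod.ext f' (eq_sub_of_add_eq f)) (c _ f'')
  · refine (((AM.finite_ctyp (ν := ν) (κ := Fin 0) h.nice.toGood (j + 1) d).image
      fun y => (y.2.1, y.1 - 1)).prod finite_univ).subset ?_
    rintro y ⟨m, a, b, c, f⟩
    exact ⟨⟨(_, _, _), ⟨m, a, b, c, _, f⟩, Prod.ext rfl (add_sub_cancel_right ..)⟩, trivial⟩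

end Ok

end PrR

open PrR in
/-- **The product formula for relative invariants.** -/
theorem St.prodR_of (hP : St.PRc) (hW : St.Well) : St.ProdR := by
  intro Λ R J K _ _ _ _ _ F δ l k A A' V _ _ p i D i' h₁ hl h₂ h₃ h₄ h₅ h₆ d j v x
  have h : Ok p F i i' δ k :=
    ⟨h₁, Fam.cp_of_subsingleton (hl ▸ subsingleton_singleton), h₂, h₃, h₄, h₅, h₆⟩
  refine And.right (a := _) (?_ : FSum _ _)
  have hv := (span_emb (V := V) D).ge (Submodule.mem_top (x := v))
  have hx := (span_mon (span_emb (V := V) D)).ge (Submodule.mem_top (x := x))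
  induction hv using Submodule.span_induction with
  | zero => exact ⟨by simp [← Prod.zero_eq_mk], by simp [← Prod.zero_eq_mk]⟩
  | add a b _ _ ha hb =>
    simpa only [← map_add, ← add_mul, Prod.mk_add_mk, add_zero] using ha.add hb
  | smul c a _ ha =>
    simpa only [← smul_eq_mul c, ← map_smul, ← smul_mul_assoc, Prod.smul_mk, smul_zero]
      using ha.mul c
  | mem v hv =>
    induction hx using Submodule.span_induction with
    | zero => exact ⟨by simp, by simp⟩
    | add x y _ _ hx hy => simpa only [← map_add, ← mul_add] using hx.add hy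
    | smul c x _ hx => simpa only [map_smul, mul_smul_comm, smul_eq_mul] using hx.mul c
    | mem x hx =>
      obtain ⟨y, rfl⟩ := hv
      obtain ⟨n, L, -, hL, rfl⟩ := hx
      obtain ⟨l', e⟩ := exists_map_eq (fun y : (ℕ ⊕ ℕ) × V × D.H => emb D y.1 y.2) (L.map Prod.snd)
        fun z hz => let ⟨w, a, b⟩ := List.mem_map.1 hz; let ⟨u, c⟩ := hL w a; ⟨u, b ▸ c.symm⟩
      obtain ⟨M, hM, f⟩ := exists_enum (y :: l')
      generalize (y :: l').length = N at M hM f
      obtain ⟨sh, hs⟩ := Num.exists_fun (hM.map_snd fun x => x.2.1)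
      obtain ⟨z, M, rfl, rfl, rfl⟩ := List.map_eq_cons_iff.1 f
      have s : ∀ x ∈ z :: M, sh x.1 = x.2.1 := fun x hx => hs _ (List.mem_map_of_mem hx)
      have t : mo p D sh (M.map fun x => (x.1, x.2.2)) = mon _ L := by
        rw [mon_eq, e, mo, List.map_map, List.map_map, List.map_map]
        exact congrArg _ (List.map_congr_left fun x hx =>
          congrArg (fun s => ι _ (emb D s x.2.2)) (s x (List.mem_cons_of_mem _ hx)))
      have := h.fsum (d := d) (j := j) (sh := sh) hP hW hl (hM.map_snd fun x => x.2.2)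
      rwa [t, s z List.mem_cons_self] at this

end Vale.Agent.P269
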