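import Vale.Agent.P269.G3.Defs
import Vale.Agent.P269.Spl.Type
import Vale.Agent.P269.Spl.DictA0
import Vale.Agent.P269.Vir.Adm

/-!
# Limits of maps with given contact orders are balanced
-/

set_option linter.unusedSectionVars false

namespace Vale.Agent.P269

open P291Z Set Function Topology Filter Base Cv

namespace BalP

theorem ord_of {f : ℂ → ℂ} {n : ℕ} (hf : AnalyticAt ℂ f 0) (h : analyticOrderAt f 0 = n) :
    ∃ a, Clos.Ord n f a :=
  let ⟨g, g1, g2, g3⟩ := hf.analyticOrderAt_eq_natCast.1 h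
  ⟨_, g2, g, g1, rfl, (g3.filter_mono nhdsWithin_le_nhds).mono fun z e => by
    rw [e, sub_zero, smul_eq_mul, zpow_natCast]⟩

variable {X : Type} [TopologicalSpace X] [T2Space X] [CompactSpace X] {R : RS X}

/-- the degree is the sum of the orders of a meromorphic section -/
theorem degOn_vz {L : LB R} {w : X → ℤ} {a : X → ℂ} (hw : (support w).Finite) (h0 : ∀ x, a x ≠ 0)
    (h : ∀ x, Vz (w x) (L.loc a x) (a x)) {U : Set X} (hU : IsClopen U) :
    degOn L U = ∑ᶠ x ∈ U, w x := by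
  classical
  rw [DA.degOn_eq (y := ((↑) : hw.toFinset → X)) (u := fun k => w k) hU (B := a) (fun z => ?_) h0,
    finsum_mem_eq_sum_filter _ _ hw, Finset.sum_filter, Finset.sum_filter]
  · exact Finset.sum_coe_sort _ fun x => if x ∈ U then w x else 0
  obtain ⟨g, g1, g2, g3⟩ := h z
  refine g1.congr (eventuallyEq_nhds_of_eventuallyEq_nhdsNE ?_ (g2.trans LB.loc_zero.symm))
  by_cases e : w z = 0
  · rw [MerP.loc_off fun k a => hw.mem_toFinset.1 k.2 (a ▸ e)]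
    exact g3.mono fun _ a => by rw [a, e, zpow_zero, one_mul]
  · filter_upwards [g3, MerP.loc_at (u := fun k : hw.toFinset => w k) (s := a) (L := L)
      Subtype.val_injective ⟨z, hw.mem_toFinset.2 e⟩, self_mem_nhdsWithin] with t e1 e2 e3
    exact mul_left_cancel₀ (zpow_ne_zero _ e3) (e1.symm.trans e2)

/-- the limit section and its orders -/
theorem exists_lim {ι : Type} [Fintype ι] {M : ι → ℕ} {T P : Type*} [TopologicalSpace T]
    [NormedAddCommGroup P] [NormedSpace ℂ P] [FiniteDimensional ℂ P] {o : ι} {C : T → Set (V M)}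
    {π : T → P} {t₀ : T} {N : Finset (X × X)} {A : ι → LB R} {p : X → V M} {α κ : Type*} [Finite κ]
    {U : Ultrafilter α} {t : α → T} {χ : ι → ℤ} {x₀ : κ → X} {u : κ → ℤ} {q : α → κ → V M}
    {β : α → V M → ℂ} (H : Clos.Ctx o C π t₀ N A p U t χ x₀ u q β) {s : X → ℂ}
    (hs : s ∈ (bz A χ).Γ) (hl : ∀ x, ∀ y : α → V M, Tendsto y U (𝓝 (p x)) →
      (∀ᶠ n in U, y n ∈ C (t n)) → Tendsto (fun n => β n (y n)) U (𝓝 (s x))) :
    ∃ w : X → ℤ, (∀ k, w (x₀ k) = u k) ∧ (∀ x, Sm N x → (∀ k, x₀ k ≠ x) → w x = 0) ∧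
      (∀ e ∈ N, w e.2 = -w e.1) ∧ (∀ U, IsClopen U → degOn (bz A χ) U = ∑ᶠ x ∈ U, w x) ∧
      ∀ x, (bz A χ).ord s x ≠ ⊤ → ∃ n : ℕ, (bz A χ).ord s x = n ∧ w x = n := by
  obtain ⟨lam, B, w, lc, l0, wk, wN, sm, od, -⟩ := H.eta
  have ev : ∀ x, ∀ᶠ z in 𝓝[≠] 0, Clos.Ordi N x₀ (R.i x z) := fun x =>
    R.ev_ne_iff.1 (Clos.ev_ordi x)
  have key : ∀ x z, Clos.Ordi N x₀ (R.i x z) →
      B (br A p x z) = (bz A χ).loc (fun y => B (p y)) x z := fun x z h => by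
    rw [br_eq, ((sm _ h.1 h.2).2.2.2 _ fun i => inv_ne_zero ((A i).ne _ _)).1]
    simp only [LB.loc, bz_φ, inv_zpow, Finset.prod_inv_distrib, div_eq_inv_mul]
  choose a ha using fun x => od x (br A p x) ⟨1, id, analyticAt_const, analyticAt_id,
    fun _ => one_ne_zero, rfl, by simp, .of_forall fun z => (one_smul _ _).symm⟩
  have a1 : ∀ x, Clos.Ordi N x₀ x → a x = B (p x) := fun x h =>
    (tendsto_nhds_unique_of_eventuallyEq ((sm x h.1 h.2).1 ▸ ha x :).tends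
      ((sm x h.1 h.2).2.1.continuousAt.tendsto.mono_left nhdsWithin_le_nhds)
        ((ev x).mono (key x))).trans LB.loc_zero
  have a2 : ∀ x, Vz (w x) ((bz A χ).loc a x) (a x) := fun x => by
    obtain ⟨-, g, g1, g2, g3⟩ := ha x
    refine ⟨g, g1, g2, ?_⟩
    filter_upwards [g3, ev x] with z b1 b2
    rw [← b1, comp_apply, key x z b2, LB.loc, LB.loc, a1 _ b2]
  have a3 : ∀ z, Clos.Ordi N x₀ z → Tendsto (lam z) U (𝓝 (s z / a z)) := fun z h => by
    obtain ⟨y, y1, y2⟩ := H.fam.exists_approx (H.par.mem z)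
    have b := ((sm z h.1 h.2).2.2.2 1 fun _ => one_ne_zero).2.2
    rw [one_smul, ← a1 z h] at b
    replace b := b _ (y1.comp H.lim) (H.lim.eventually y2)
    refine ((hl z _ (y1.comp H.lim) (H.lim.eventually y2)).div b (ha z).1).congr'
      ((b.eventually_ne (ha z).1).mono fun n e => ?_)
    exact div_div_cancel₀ (div_ne_zero_iff.1 e).1
  refine ⟨w, wk, fun x b c => (sm x b c).1, wN, fun U => degOn_vz ?_ (fun x => (ha x).1) a2,
    fun x hx => ?_⟩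
  · refine (((N.finite_toSet.image Prod.fst).union (N.finite_toSet.image Prod.snd)).union
      (finite_range x₀)).subset fun x hx => by_contra fun e => hx (sm x (fun n hn => ?_)
        fun k b => e (.inr ⟨k, b⟩)).1
    exact ⟨fun b => e (.inl (.inl ⟨n, hn, b⟩)), fun b => e (.inl (.inr ⟨n, hn, b⟩))⟩
  obtain ⟨n, hn⟩ := ENat.ne_top_iff_exists.1 hx
  obtain ⟨c, O⟩ := ord_of (hs x) hn.symm
  have e : ∀ᶠ z in 𝓝[≠] x, s z = limUnder U (lam x) * a z := by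
    filter_upwards [Clos.ev_ordi (N := N) (x₀ := x₀) x, nhdsWithin_le_nhds (lc.eventually_eq x)]
      with z b1 b2
    rw [← b2, (a3 z b1).limUnder_eq, div_mul_cancel₀ _ (ha z).1]
  have := R.neBot x
  obtain ⟨z, z1, z2⟩ := (e.and ((hs x).zero_or_ne.resolve_left (mt LB.ord_eq_top.2 hx))).exists
  obtain ⟨g, g1, g2, g3⟩ := a2 x
  refine ⟨n, hn.symm, Clos.Ord.unique (f := (bz A χ).loc s x) ⟨mul_ne_zero
    (left_ne_zero_of_mul (z1 ▸ z2)) (ha x).1, fun t => limUnder U (lam x) * g t,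
      analyticAt_const.mul g1, congrArg _ g2, ?_⟩ O⟩
  filter_upwards [g3, R.ev_ne_iff.1 e] with t b1 b2
  rw [mul_left_comm, ← b1, LB.loc, LB.loc, b2, mul_div_assoc]

end BalP

variable {S Λ R J K ι ν κ : Type} [Fintype S] [Fintype Λ] [Fintype R] [Fintype J] [Fintype K]
  [Fintype ι] [DecidableEq ι] [Fintype ν] [Fintype κ] {ch : Ch ι J} {F : Fam S Λ R J K}
  {ℓ : R → ι → ℤ} {A : Set J} {x : ch.WF ν κ Λ} {m : AM Λ R J ν κ} {u : ν → J → ℕ} {b : J}

/-- the field `b` on the main stratum -/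
theorem Ch.mer_main (hx : x ∈ ch.main κ F u) (h1 : b ∉ F.mov) (h2 : b ∉ F.zer) :
    Clos.Mer ch.o (crv x.2) (ch.wd b) x.2.p (fun k => (Sum.elim (u · b) 0 k : ℕ))
      fun z => fld x.2 z b := by
  classical
  have an := fun γ => an_fld (γ := γ) hx.1.1.2.1 (hx.1.2.1 b h1)
  refine ⟨fun _ hs z hz => fld_smul hz (hx.1.2.1 b h1 z hz) hs, fun γ hγ e => ⟨an γ hγ, ?_⟩,
    fun k γ hγ ⟨s, s0, e⟩ => BalP.ord_of (an γ hγ) ((hx.2 b h1 h2 γ hγ).trans (congrArg _ ?_))⟩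
  · refine (an γ hγ).analyticOrderAt_eq_zero.1 ((hx.2 b h1 h2 γ hγ).trans ?_)
    rw [Finset.sum_eq_zero fun n _ => if_neg fun ⟨s, a⟩ => e (.inl n) ⟨s, fun i s0 =>
      crv_ne hγ.mem.self_of_nhds i (by rw [a, Pi.smul_apply', s0, zero_smul]), a⟩, Nat.cast_zero]
  · have i : ∀ n, (∃ s : ι → ℂ, γ 0 = s • x.2.p (.inl n)) → k = .inl n := fun n ⟨s', a⟩ =>
      hx.1.1.2.1.2.2.2.2.1 _ _ (s⁻¹ * s') (by
        rw [mul_smul, ← a, e, smul_smul, show s⁻¹ * s = 1 from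
          funext fun i => inv_mul_cancel₀ (s0 i), one_smul])
    rcases k with k | k
    · rw [Finset.sum_eq_single k (fun n _ a => if_neg fun c => a (Sum.inl_injective (i n c)).symm)
        (absurd (Finset.mem_univ _)), if_pos ⟨s, e⟩]
      rfl
    · exact Finset.sum_eq_zero fun n _ => if_neg fun c => nomatch i n c

theorem Ch.Rep.bal (hm : Ch.Rep ℓ A x m) (hc : ch.Cuts) (hF : F.Inv) (hl : ch.Lat F.toWt ℓ)
    (hx : x ∈ ch.cyc κ F u) (hA : F.movᶜ ⊆ A) (h1 : b ∉ F.mov) (h2 : b ∉ F.zer) :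
    m.Bal (F.w b) b (Sum.elim (u · b) 0) := by
  have _ := hF
  obtain ⟨B, π, v, s, d⟩ := hm.exists_data hx.2.2.1
  obtain ⟨U, h, hU⟩ := mem_closure_iff_ultrafilter.1 hx.1
  replace h : ∀ᶠ n in U, n ∈ ch.main κ F u := h
  obtain ⟨y, hy⟩ := Eventually.choice (r := fun n (y : ch.base (Ch.Mk ν κ)) => n.2 = y.1)
    (h.mono fun n a => ⟨⟨_, a.1.1.2.1⟩, rfl⟩)
  have hU : Tendsto id U (𝓝 x) := tendsto_id.mono_right hU
  have h3 := hU.snd_nhds.congr' hy
  obtain ⟨l, hl'⟩ := hc.cut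
  have H : Clos.Ctx ch.o (fun y : ch.base (Ch.Mk ν κ) => Ch.crv y.1) Subtype.val ⟨x.2, hx.2.2.1⟩ m.N
      B π U y (ch.wd b) m.p (fun k => (Sum.elim (u · b) 0 k : ℕ)) (fun n => n.2.p)
        fun n z => Ch.fld n.2 z b :=
    ⟨Ch.locFam_base hl' _, d.cr.par, tendsto_subtype_rng.2 h3, m.inj, m.sm, fun k =>
      ⟨_, d.crep.orb k, ((Ch.W.pL (ch := ch) k).continuous.tendsto _).comp hU.snd_nhds⟩,
      (h.and hy).mono fun n a => a.2 ▸ ⟨fun k => (a.1.1.1.2.1.2.2.2.1 k).1, Ch.mer_main a.1 h1 h2⟩⟩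
  have e := d.eqv_wd hl.wd b
  obtain ⟨w, w1, w2, w3, w4, w5⟩ := BalP.exists_lim H (d.cr.ind_mem (d.ind b (hA h1))).1
    fun z q q1 q2 => d.cr.fld_π (d.ind b (hA h1)) z ▸ (Ch.lim_fld hx.2.2.1.1 hU q1 (d.cr.par.mem z)
      (((h.and hy).and q2).mono fun n a => have := a.1.2 ▸ a.2
        ⟨this, a.1.1.1.2.1 b h1 _ this⟩)).2
  exact ⟨w, w1, w2, w3, fun U a => e.degOn U ▸ w4 U a, fun z => e.ord z ▸ w5 z⟩

end Vale.Agent.P269
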