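import Vale.Agent.P269.G3.Defs
import Vale.Agent.P269.Prj.TgtM
import Vale.Agent.P269.Orb.LC

/-!
# Point classes, Poincare duality, far points
-/

set_option linter.unusedSectionVars false

namespace Vale.Agent.P269

open Set Function Topology Filter P291Z Holo Orb Mono

/-- extension of germs of continuous functions -/
theorem G3Pt.exists_ext {X : Type} [TopologicalSpace X] [Nice X] {n : ℕ} {r : X → Fin n → ℂ} {x : X}
    (h : ∀ᶠ y in 𝓝 x, ContinuousAt r y) : ∃ G : C(X, Fin n → ℂ), ∀ᶠ y in 𝓝 x, G y = r y := by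
  obtain ⟨C, a, b, c⟩ := exists_mem_nhds_isClosed_subset h
  obtain ⟨G, e⟩ := ContinuousMap.exists_restrict_eq b ⟨fun y : C => r y,
    continuous_iff_continuousAt.2 fun y => (c y.2).comp continuous_subtype_val.continuousAt⟩
  exact ⟨G, mem_of_superset a fun y k => (DFunLike.congr_fun e ⟨y, k⟩ :)⟩

namespace Tq

variable {A W : Type} [NormedRing A] [NormedAlgebra ℂ A] [NormedAddCommGroup W] [NormedSpace ℂ W]
  [FiniteDimensional ℂ A] [FiniteDimensional ℂ W] {act : A → W → W} {S : Set W} [IsAct act univ]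
  [FP act S] {n : ℕ} (h : Dim act S n)
include h

/-- a point class given by holomorphic coordinates -/
theorem Dim.exists_pt (x₀ : S) : ∃ (a : Coch (Quo act S)) (G : C(Quo act S, Fin n → ℂ))
    (g : W → Fin n → ℂ), supp (δ a) = ∅ ∧ supp a ⊆ {Quo.mk act x₀} ∧ IsDeg (2 * n) a ∧
      G (Quo.mk act x₀) = 0 ∧ Isol {Quo.mk act x₀} (G ⁻¹' {0}) ∧
      LCoh {Quo.mk act x₀} a (pull G (tau n)) ∧ AnalyticAt ℂ g x₀ ∧
      ∀ᶠ x in 𝓝 x₀.1, ∀ hx : x ∈ S, G (Quo.mk act ⟨x, hx⟩) = g x := by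
  obtain ⟨φ, hφ, rfl⟩ := h.holOrb.slice (x₀ : Sp act S)
  obtain ⟨w, κ, h1, h2, -, h3⟩ := hφ.exists_coord
  obtain ⟨r, r0, r1, r2, r3⟩ := (LH.quot Sp.isOpenQuotientMap_mk (fun _ _ => Sp.mk_eq_iff) hφ.1
    (FP.free _)).exists_inv
  obtain ⟨G, e⟩ := G3Pt.exists_ext r1.eventually_cont
  have i : Isol {(φ 0).mk} (G ⁻¹' {0}) := fun _ k => k ▸ (e.and r3).mono fun y a b =>
    a.2.symm.trans (congrArg (fun z => (φ z).mk) (a.1.symm.trans b))
  obtain ⟨a, b⟩ := loc_spec isClosed_singleton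
    (i.mono fun y k => supp_tau n (supp_pull G.continuous _ k))
  refine ⟨_, G, w, cocycle_of_supp (fun x _ => supp_eq_empty.1
    (cocycle_pull G.continuous (tau_cocycle n)) x) a b, a, loc_deg _ ((tau_deg n).pull _),
    e.self_of_nhds.trans r0, i, .of_van fun x k => van_symm (b x k), h1, ?_⟩
  have c := h1.continuousAt.tendsto.comp Sp.continuous_val.continuousAt
  have d := h2.self_of_nhds
  rw [one_smul] at d
  rw [d] at c
  have k : ∀ᶠ t : Sp act S in 𝓝 (φ 0), G t.mk = w t.val := by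
    filter_upwards [h3, Sp.continuous_mk.continuousAt.eventually e, c.eventually r2] with t a b c
    rw [b, ← a, Sp.mk_smul, a]
    exact c
  rw [Sp.isEmbedding_val.nhds_eq_comap, eventually_comap] at k
  exact k.mono fun x k hx => k (.of act x hx) rfl

/-- a functional on the top degree that does not vanish on any component -/
theorem Dim.exists_mul_ne [CompactSpace (Quo act S)] (L : H (Quo act S) →ₗ[ℂ] ℂ)
    (h1 : ∀ k c, H.IsDeg k c → k ≠ 2 * n → L c = 0)
    (h2 : ∀ U, IsClopen U → U.Nonempty → ∃ x ∈ U, ∃ a, supp (δ a) = ∅ ∧ supp a ⊆ {x} ∧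
      L (hcls a) ≠ 0) {c : H (Quo act S)} (hc : c ≠ 0) : ∃ s, L (s * c) ≠ 0 := by
  obtain ⟨f, hf, e⟩ := h.ori.exists_fn (γ := L ∘ₗ Fl.toH)
    (BM.isDeg_iff.2 fun j k c a => h1 j _ (Fl.toH_deg a) k)
  have f0 : ∀ x, f x ≠ 0 := fun x k => by
    obtain ⟨y, a, b, c, d, g⟩ := h2 _ (hf.isClopen_fiber 0) ⟨x, k⟩
    have := ev_cap_fn hf (fnd act S) c d
    rw [e, a, zero_mul, ev_eq, LinearMap.comp_apply, Fl.toH_cls (Zc_of_pt c d)] at this
    exact g this
  by_contra! a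
  have k : c * hcls (fn f) = 0 := h.ori.pd_bijective.1 (by
    rw [map_zero, pd_eq_cap, cap_mul, e]
    exact LinearMap.ext fun u => (congrArg L (Fl.toH_act c u)).trans (a _))
  have g := hf.comp fun z => z⁻¹
  refine hc ?_
  rw [← mul_one c, ← hcls_one, ← fn_one, show fn (fun _ => 1) = fn f * fn ((fun z => z⁻¹) ∘ f) from
    (isDeg_fn _).ext_zero ((isDeg_fn _).mul (isDeg_fn _)) fun x => ?_,
    hcls_mul (cocycle_fn.2 hf) (cocycle_fn.2 g), ← mul_assoc, k, zero_mul]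
  exact (mul_inv_cancel₀ (f0 x)).symm.trans
    (mul_val_of_isDeg (p := 0) (isDeg_fn f) (fn ((fun z => z⁻¹) ∘ f)) [x] one_pos).symm

end Tq

variable {Λ R J K : Type} [Fintype Λ] [Fintype R] [Fintype J] [Fintype K] [DecidableEq R]
  [DecidableEq J] {F : Fam Empty Λ R J K} {l : Λ → ℂ} {b : J} {ρ : ℕ} {I : Fin (ρ + 1) → J}
  {φ χ : R → ℤ} {K₀ : Set K} (h : F.Cap l b I φ χ K₀)
include h

theorem Fam.Cap.cp : F.Cp :=
  haveI : CompactSpace F.B := isCompact_iff_compactSpace.1 (h.B ▸ isCompact_singleton)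
  Quot.compactSpace

theorem Fam.Cap.compact : CompactSpace (F.X F.cone) := h.nice.toGood.compact h.cp

theorem Fam.Cap.exists_far {U : Set (F.X F.cone)} (hU : IsClopen U) (hn : U.Nonempty) :
    ∃ x : F.cone, Quo.mk F.actT x ∈ U ∧ ∀ a, x.1.2 (I a) = 0 := by
  obtain ⟨u, hu⟩ := hn
  obtain ⟨z, rfl⟩ := Tq.mk_surj u
  obtain ⟨σ, -, h1, h2, h3, h4⟩ := h.fib z z.2
  have : PreconnectedSpace ({0}ᶜ : Set (Option (Fin (ρ + 1)) → ℂ)) :=
    isPreconnected_iff_preconnectedSpace.1 (isConnected_compl_singleton_of_one_lt_rank (by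
      rw [← Module.finrank_eq_rank, finrank_real_of_complex, Module.finrank_fintype_fun_eq_card,
        Fintype.card_option, Nat.one_lt_cast]
      omega) 0).isPreconnected
  have c : Continuous fun v : ({0}ᶜ : Set (Option (Fin (ρ + 1)) → ℂ)) =>
      Quo.mk F.actT ⟨_, h4 v v.2⟩ := Tq.continuous_mk.comp ((continuous_const.prodMk
    (continuous_pi fun j => (σ j).continuous_eval.comp continuous_subtype_val)).subtype_mk _)
  have v0 : (fun o => o.elim (z.1.2 b) fun a => z.1.2 (I a) : Option (Fin (ρ + 1)) → ℂ) ≠ 0 :=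
    fun e => (h.nz z z.2).elim (fun k => k (congrFun e none)) fun ⟨a, k⟩ => k (congrFun e (some a))
  have e := h.ext z z.2 _ (h4 _ v0) (fun j k => by simp [h1 j k]) (by simp [h2]) fun a => by
    simp [h3]
  refine ⟨_, ((hU.preimage c).eq_univ ⟨⟨_, v0⟩, ?_⟩).ge (mem_univ
    ⟨Pi.single none 1, Pi.single_ne_zero_iff.2 one_ne_zero⟩), fun a => by simp [h3]⟩
  exact (congrArg (Quo.mk F.actT · ∈ U) (Subtype.ext e)).mp hu

end Vale.Agent.P269
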