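import Vale.Agent.P269.G3.ClD
import Vale.Agent.P269.LG.HVs
import Vale.Agent.P269.Bas.Ev

/-!
# The class of the values of a field at a marked point
-/

set_option linter.unusedSectionVars false

namespace Vale.Agent.P269.Ch

open Set Function Topology Filter P291Z Orb

variable {S Λ R J K ι ν κ : Type} [Fintype S] [Fintype Λ] [Fintype R] [Fintype J] [Fintype K]
  [Fintype ι] [DecidableEq ι] [Fintype ν] [Fintype κ] {ch : Ch ι J} {F : Fam S Λ R J K}
  {ℓ : R → ι → ℤ}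

theorem GZ.cl_lc {Z : Set (ch.WF ν κ Λ)} (h : GZ F ℓ Z) (n : Mk ν κ) {A : Set _}
    [Mono.FP F.actT A] (hA : ∀ x ∈ Z, vl x n ∈ A) (j : J) :
    F.cl Z (.ev n A (F.lc A (F.wt j) (F.w j))) = lcv F ℓ Z n j :=
  haveI := h.act
  (h.cl_ev n hA _).trans (map_lcq h.orb (Tq.orb _ _) (h.eqh_vl n hA) (hm_chT _ _))

end Vale.Agent.P269.Ch
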