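import Vale.Agent.P269.G3.Pos
import Vale.Agent.P269.G3.Line
import Vale.Agent.P269.Bas.Ev
import Vale.Agent.P269.Vir.Cyc

/-!
# Virtual integrals that localise at a point given by jets: the abstract form
-/

set_option linter.unusedSectionVars false
set_option linter.style.haveILetI false

namespace Vale.Agent.P269.Ch

open Set Function Topology Filter P291Z Orb Module

variable {A A' W W' P V : Type} [NormedRing A] [NormedAlgebra ℂ A] [NormedAddCommGroup W]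
  [NormedSpace ℂ W] [NormedRing A'] [NormedAlgebra ℂ A'] [NormedAddCommGroup W'] [NormedSpace ℂ W']
  [AddCommGroup P] [Module ℂ P] [TopologicalSpace P] [NormedAddCommGroup V] [NormedSpace ℂ V]
  {act : A → W → W} {act' : A' → W' → W'} {Z S O M : Set W} {d : ℕ}

theorem lcq_spH [Holo.IsAct act S] (ho : Orb Aˣ (Holo.Sp act S)) {c : A → ℂ} (h : Tq.Hm c) :
    Tq.lcq act S c = (c1 (Y := spA ho) h.ρ).1 :=
  (Tq.lcq_eq (presA ho) (χ := h.ρ) fun _ => rfl).trans (H.map_id (fun _ => rfl) _)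

theorem map_lcq' {S' : Set W'} [Holo.IsAct act S] [Holo.IsAct act' S']
    (ho : Orb Aˣ (Holo.Sp act S)) (ho' : Orb A'ˣ (Holo.Sp act' S')) {θ : A → A'} {f : W → W'}
    (h : Tq.Eqh act act' S S' θ f) {c : A' → ℂ} (hc : Tq.Hm c) :
    H.map h.toEqv.qm (Tq.lcq act' S' c) = Tq.lcq act S fun a => c (θ a) := by
  let m : Mor (spA ho) (spA ho') :=
    ⟨h.hm.ρ.toMonoidHom, fun x => Holo.Sp.of act' (f x.val) (h.maps x.val_mem), h.hm.ρ.continuous,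
      (h.cont.domRestrict.subtype_mk _ :), fun g x => Holo.Sp.ext (h.eqv _ g.isUnit _ x.val_mem)⟩
  have e : m.map = h.toEqv.qm :=
    (DFunLike.coe_injective (m.map_eq (φ := h.toEqv.qm) fun _ => rfl)).symm
  rw [lcq_spH ho' hc, lcq_spH ho (h.hm.comp hc), ← e]
  exact congrArg Subtype.val ((map_c1 m _).trans
    (congrArg c1 (ContinuousMonoidHom.ext fun _ => Units.ext rfl)))

/-- `f` is a section over `T` of the line bundle of `c` twisted by a power of the dual of `E`. -/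
structure SD.Jt (E : SD A W V) (act : A → W → W) (c : A → ℂ) (r : ℕ) (f : W × V → ℂ)
    (T : Set (W × V)) : Prop where
  hm : Tq.Hm c
  cont : ContinuousOn f T
  eqv : ∀ s, IsUnit s → ∀ x v, (x, v) ∈ T →
    (act s x, E.ρ s v) ∈ T ∧ f (act s x, E.ρ s v) = c s * f (x, v)
  smul : ∀ x v v' (a : ℂ), (x, v) ∈ T → a ≠ 0 → v' - a • v ∈ E.N x →
    (x, v') ∈ T ∧ f (x, v') = a ^ r * f (x, v)

theorem SD.Jt.one {E : SD A W V} {c r f T} (h : E.Jt act c r f T) {x v v'} (a : (x, v) ∈ T)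
    (e : v' - v ∈ E.N x) : (x, v') ∈ T ∧ f (x, v') = f (x, v) := by
  simpa only [one_pow, one_mul] using h.smul x v v' 1 a one_ne_zero (by rwa [one_smul])

variable [FiniteDimensional ℂ A] [FiniteDimensional ℂ W] [CompleteSpace V]

theorem _root_.Vale.Agent.P269.Cyc.exists_slice [Holo.IsAct act O] (hc : Cyc act O M d)
    (ho : Orb Aˣ (Holo.Sp act O)) {y : W} (hy : y ∈ M) : ∃ φ : (Fin d → ℂ) → Holo.Sp act O,
      (φ 0).val = y ∧ AnalyticAt ℂ (fun z => (φ z).val) 0 ∧ PCh (Holo.Sp.mk ∘ φ) ∧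
        ∃ μ, Orb.Val (fnd act O d) (Holo.Sp.mk ∘ φ) μ := by
  haveI := hc.toTpc.isAct
  have a := hc.toTpc.holOrb ho
  obtain ⟨φ, b, c⟩ := a.slice (Holo.Sp.of act y hy)
  have e : IsSlice Aˣ Holo.Sp.val fun z => Holo.Sp.incl act hc.sub (φ z) :=
    IsSlice.push_lh (Holo.Sp.incl_smul hc.sub)
      ((Holo.Sp.isOpenEmbedding_incl hc.sub hc.opn).isLocalHomeomorph.isLocalHomeomorphOn) b
  exact ⟨_, congrArg Holo.Sp.val c, e.2.1, (a.gch isQuo_sp b).pch.comp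
    (Quo.isEmbedding_incl hc.sub).continuous (Quo.isEmbedding_incl hc.sub).injective, _, hc.val ho e⟩

theorem KD.Dom.pos {D : KD A W P} (h : D.Dom act Z S O) (hc : Cyc act O M d) {k : KP h.sp}
    {i : k.P.W →ₗ[ℂ] P} (hk : h.IsKP k i) [CompactSpace (Quo act Z)] {E : SD A W V} {r₀ : ℕ}
    (hE : E.Ok act O (r₀ + 1) r₀) {ι : Type} [Fintype ι] {c : ι → A → ℂ} {r : ι → ℕ}
    {f : ι → W × V → ℂ} {T : ι → Set (W × V)} (hJ : ∀ q, E.Jt act (c q) (r q) (f q) (T q))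
    (ht : ι → ℕ) {B : Set (Quo act Z)} (hB : IsClosed B) (y : Z) (hy : y.1 ∈ M)
    (hyB : Quo.mk act y ∈ B)
    (lev : ∀ x : Z, Quo.mk act x ∈ B → ∀ v ∈ E.B x, v ∉ E.N x → ∀ q,
      (∀ q', ht q' < ht q → f q' (x, v) = 0) → (x.1, v) ∈ T q)
    (uniq : ∀ x : Z, Quo.mk act x ∈ B → ∀ v ∈ E.B x, v ∉ E.N x → (∀ q, f q (x, v) = 0) →
      Quo.mk act x = Quo.mk act y)
    {u : W → V} (hu : AnalyticAt ℂ u y) (hu' : ∀ᶠ x in 𝓝 y.1, x ∈ O → u x ∈ E.B x ∧ u x ∉ E.N x)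
    {Φ : ι → W → ℂ} (hΦ : ∀ q, AnalyticAt ℂ (Φ q) y)
    (hΦ' : ∀ q, ∀ᶠ x in 𝓝 y.1, (x, u x) ∈ T q → f q (x, u x) = Φ q x)
    (zero : ∀ q, f q (y, u y) = 0) {L : W → P →ₗ[ℂ] (Fin k.r → ℂ)}
    (L1 : ∀ w ∈ D.P₀, AnalyticAt ℂ (fun x => L x w) y) (L2 : AnalyticAt ℂ (fun x => L x (D.s x)) y)
    (L3 : ∀ᶠ x in 𝓝 y.1, x ∈ O → ∀ w ∈ D.van x, L x w = 0)
    (L4 : ∀ w ∈ D.obs y, L y w = 0 → w ∈ D.van y)
    {a : Coch (Quo act Z)} (ha : supp (δ a) = ∅) (hs : supp a ⊆ B) {n₀ : ℕ}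
    {G : C(Quo act Z, Fin n₀ → ℂ)} (hG : ∀ z ∈ B, G z = 0) (hI : Isol B (G ⁻¹' {0}))
    (hL : LCoh B a (pull G (tau n₀))) {g : W → Fin n₀ → ℂ} (hg : AnalyticAt ℂ g y)
    (hg' : ∀ᶠ x in 𝓝 y.1, ∀ hx, G (Quo.mk act ⟨x, hx⟩) = g x)
    (hd : d = n₀ + Fintype.card ι + k.r) {Ψ : Hev (Quo act Z)} {C : ι → Hev (Quo act Z)}
    (hΨ : Ψ.1 = -hcls (E.eu act Z)) (hC : ∀ q, (C q).1 = Tq.lcq act Z (c q)) :
    Loc.intg (k.vir (Quo.incl act h.sub) (h.fnd d)) (hcls a * (∏ q, (r q • Ψ + C q)).1) ≠ 0 := by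
  haveI := h.isAct
  haveI := h.isActZ hk
  have hZ := h.isZ hk
  haveI := h.niceZ hk
  obtain ⟨Y', m, χ, v, hF⟩ := hE.exists_fr h.orb
  obtain ⟨φ, p0, pa, pp, μ, pv⟩ := hc.exists_slice h.orb hy
  have pt : Tendsto (fun z => (φ z).val) (𝓝 0) (𝓝 y.1) := p0 ▸ pa.continuousAt
  have an : ∀ {N : Type} [NormedAddCommGroup N] [NormedSpace ℂ N] {a : W → N}, AnalyticAt ℂ a y →
      AnalyticAt ℂ (fun z => a (φ z).val) 0 := fun b => b.comp_of_eq pa p0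
  obtain ⟨U, hU, hUo, hU0⟩ := eventually_nhds_iff.1 (pa.eventually_analyticAt.and
    ((an hu).eventually_analyticAt.and (pt.eventually hu')))
  obtain ⟨ψ, c1', c2⟩ := hF.lift U φ (fun z => u (φ z).val) ⟨0, hU0⟩
    (fun z b => (Holo.Sp.isEmbedding_val.continuousAt_iff.2 (hU z b).1.continuousAt).continuousWithinAt)
    (fun z b => (hU z b).2.1.continuousAt.continuousWithinAt)
    (fun z b => ((hU z b).2.2 (φ z).val_mem).1) fun z b => ((hU z b).2.2 (φ z).val_mem).2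
  have eU : ∀ᶠ z in 𝓝 0, z ∈ U := hUo.mem_nhds hU0
  have e1 : ∀ᶠ z in 𝓝 0, m.f (ψ z) = φ z := eU.mono fun z b => (c2 z b).1
  have e0 : m.f (ψ 0) = φ 0 := e1.self_of_nhds
  let e := hF.hom.homeomorph
  let j : C(Quo act Z, Y'.X) := ⟨fun z => e.symm (Quo.incl act h.sub z),
    e.symm.continuous.comp hZ.emb.continuous⟩
  have hj : ∀ z, m.map (j z) = Quo.incl act h.sub z := fun z => e.apply_symm_apply _
  let x : Y'.T → W := fun t => Holo.Sp.val (act := act) (S := O) (m.f t)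
  have ji : ∀ t z, j z = Y'.π t ↔ ∃ b : x t ∈ Z, Quo.mk act ⟨_, b⟩ = z := fun t z => by
    rw [← hF.hom.injective.eq_iff, hj, m.map_π]
    exact ⟨fun b => ⟨(Quo.mk_mem_range h.sub).1 ⟨z, b⟩, hZ.emb.injective b.symm⟩,
      fun ⟨_, b⟩ => b ▸ rfl⟩
  have jB : ∀ t, Y'.π t ∈ j '' B ↔ ∃ b : x t ∈ Z, Quo.mk act ⟨_, b⟩ ∈ B := fun t =>
    ⟨fun ⟨z, b, c⟩ => let ⟨a, e⟩ := (ji t z).1 c; ⟨a, e ▸ b⟩, fun ⟨b, c⟩ => ⟨_, c, (ji t _).2 ⟨b, rfl⟩⟩⟩
  have lv : ∀ q, ∀ t ∈ Ch.lev j B ht (fun q t => f q (x t, v t)) q, (x t, v t) ∈ T q :=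
    fun q t b => let ⟨a, c⟩ := (jB t).1 b.1; lev ⟨_, a⟩ c _ (hF.mem t) (hF.ne t) q b.2
  have x0 : x (ψ 0) = y := (congrArg Holo.Sp.val e0).trans p0
  have j0 : j (Quo.mk act y) = Y'.π (ψ 0) := (ji _ _).2 ⟨x0 ▸ y.2, congrArg _ (Subtype.ext x0)⟩
  have cx : Continuous x := Holo.Sp.continuous_val.comp m.cf
  have pψ : ∀ᶠ z in 𝓝 0, Holo.Sp.mk (m.f (ψ z)) = (Holo.Sp.mk ∘ φ) z :=
    e1.mono fun z b => congrArg _ b
  have uy := hu'.self_of_nhds (h.sub y.2)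
  rw [← Mono.DgI.hcls_rep (∏ q, (r q • Ψ + C q)).1, ← hcls_mul ha (Mono.DgI.rep_cocycle _),
    Loc.intg_hcls _ (cocycle_mul ha (Mono.DgI.rep_cocycle _))]
  refine hZ.pos (m := m) hF.hom hj (χ := fun q => χ ^ r q * m.chr (hJ q).hm.ρ) (ht := ht)
    (f := fun q t => f q (x t, v t)) (φ := ψ)
    ⟨hB, fun q => (hJ q).cont.comp (cx.prodMk hF.cont).continuousOn (lv q), fun q s t b => ?_,
      ⟨_, hyB, j0⟩, fun q => ?_, fun t b c => ?_⟩ ha hs hG hI hL (Mono.DgI.rep_cocycle _) ?_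
    (eU.mono fun z b => c1'.continuousAt (hUo.mem_nhds b))
    (PCh.of_comp (f := m.map) hF.hom.isInducing (pp.congr (pψ.mono fun z b => (m.map_π _).trans b)))
    ((Rep.of_eq pψ).val pp pv) (M := fun z => L (φ z).val ∘ₗ i)
    ⟨hk.top, fun w => an (L1 _ (hk.mem w)), (an L2).congr (e1.mono fun z b => ?_),
      (e1.and (pt.eventually L3)).mono fun z b w c => b.2 (φ z).val_mem _ ?_, fun w b c => ?_⟩
    (an hg) ((e1.and (pt.eventually hg')).mono fun z b w c => ?_) (fun q => an (hΦ q))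
    (fun q => (eU.and (pt.eventually (hΦ' q))).mono fun z b c => ?_) hd
  · have a1 := (hJ q).eqv _ (m.ρ s).isUnit _ _ (lv q t b)
    have a2 : x (s • t) = act (Units.val (m.ρ s)) (x t) := congrArg Holo.Sp.val (m.eqv s t)
    have a3 := hF.eqv s t
    change _ ∈ E.N (x (s • t)) at a3
    rw [a2] at a3 ⊢
    rw [((hJ q).smul _ _ _ _ a1.1 (χ s).ne_zero a3).2, a1.2, ← mul_assoc]
    refine congrArg (· * _) ?_
    simp only [ContinuousMonoidHom.mul_apply, ContinuousMonoidHom.pow_apply, Units.val_mul,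
      Units.val_pow_eq_pow_val]
    rfl
  · have a := (c2 0 hU0).2
    rw [p0] at a
    rw [x0, ((hJ q).one (lev y hyB _ uy.1 uy.2 q fun q' _ => zero q') a).2, zero]
  · obtain ⟨a1, a2⟩ := (jB t).1 b
    rw [← j0, ← uniq ⟨_, a1⟩ a2 _ (hF.mem t) (hF.ne t) c]
    exact ((ji t _).2 ⟨a1, rfl⟩).symm
  · obtain ⟨K, h2, h3⟩ := isClosed_induced_iff.1 k.isClosed_Zs
    have hoZ := orb_mono h.orb h.sub (Set.ext (fun x => ⟨fun hx => (h.mem_Zs hk (t := ⟨x, hx.1⟩)).1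
      (h3.le hx.2), fun hx => ⟨h.sub hx, h3.ge ((h.mem_Zs hk (t := ⟨x, h.sub hx⟩)).2 hx)⟩⟩ :
        ∀ x, x ∈ O ∩ K ↔ x ∈ Z) ▸ hc.lc.inter h2.isLocallyClosed)
    have n : ∀ a : H (Quo act O), H.map j (H.map m.map a) = H.map (EqM.incl h.sub).map a :=
      fun a => (H.map_map _ _ _).trans (congrArg (H.map · a) (ContinuousMap.ext hj))
    rw [Mono.DgI.hcls_rep]
    refine congrArg Subtype.val ((Finset.prod_congr rfl fun q _ => ?_).trans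
      (map_prod (Hev.map j) _ _).symm)
    rw [c1_mul, c1_pow, map_add, map_nsmul]
    refine congrArg₂ (r q • · + ·) (Subtype.ext ?_) (Subtype.ext ?_)
    · rw [hΨ, (hE.res_incl h.orb hoZ h.sub).1, ← n]
      exact (congrArg (fun a => -H.map j a) hF.eu).trans
        ((congrArg Neg.neg (map_neg (H.map j) _)).trans (neg_neg _))
    · rw [hC, ← map_lcq' hoZ h.orb (Tq.Eqh.incl h.sub) (hJ q).hm, lcq_spH h.orb (hJ q).hm]
      exact (n _).symm.trans (congrArg (fun a : Hev _ => H.map j a.1) (map_c1 m _))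
  · exact congrArg (L _) ((congrArg (fun t => D.s (Holo.Sp.val t)) b.symm).trans (hk.sec _).symm)
  · exact b.1 ▸ (hk.van _ w).1 c
  · have z : m.f (ψ 0) ∈ k.Zs := (h.mem_Zs hk).2 (x0.symm ▸ y.2 : x (ψ 0) ∈ Z)
    refine (hk.van _ w).2 (x0.symm ▸ L4 _ (x0 ▸ (hk.obs _ z w).1 b) (p0 ▸ c) : _ ∈ D.van (x (ψ 0)))
  · obtain ⟨a1, rfl⟩ := (ji _ _).1 c
    have a2 : x (ψ z) = (φ z).val := congrArg Holo.Sp.val b.1
    exact (congrArg (fun t => G (Quo.mk act t)) (Subtype.ext a2)).trans (b.2 (a2 ▸ a1))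
  · have a1 := lv q _ c
    have a2 : x (ψ z) = (φ z).val := congrArg Holo.Sp.val (c2 z b.1).1
    rw [a2] at a1 ⊢
    have a3 := (hJ q).one a1 (neg_sub (v (ψ z)) _ ▸ neg_mem (c2 z b.1).2)
    rw [← a3.2, b.2 a3.1]

end Vale.Agent.P269.Ch
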