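import Vale.Agent.P269.Vir.KP
import Vale.Agent.P269.Base.FldA
import Vale.Agent.P269.Base.Mark
import Vale.Agent.P269.Base.LF

/-!
# A holomorphic local model of the obstruction bundle
-/

set_option linter.unusedSectionVars false

namespace Vale.Agent.P269.Ch

open Set Function Topology Filter Base Module

variable {S Λ R J K ι ν κ : Type} [Fintype S] [Fintype Λ] [Fintype R] [Fintype J] [Fintype K]
  [Fintype ι] [DecidableEq ι] [Fintype ν] [Fintype κ] {ch : Ch ι J} {F : Fam S Λ R J K}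
  {e : K → ι → ℕ} {K₀ : Set K} {ℓ : R → ι → ℤ} {x₀ : ch.WF ν κ Λ} {r : ℕ}

namespace AnM

/-- `r` functionals of a family cut out the common kernel of codimension `r` -/
theorem exists_fin {P I : Type} [AddCommGroup P] [Module ℂ P] (φ : I → P →ₗ[ℂ] ℂ) :
    ∀ (r : ℕ) (W N : Submodule ℂ P) [FiniteDimensional ℂ W], N ≤ W → (∀ f ∈ N, ∀ i, φ i f = 0) →
      (∀ f ∈ W, (∀ i, φ i f = 0) → f ∈ N) → finrank ℂ W = finrank ℂ N + r →
        ∃ a : Fin r → I, ∀ f ∈ W, (∀ k, φ (a k) f = 0) → f ∈ N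
  | 0, _, _, _, h, _, _, d => ⟨Fin.elim0, fun _ a _ => Submodule.eq_of_le_of_finrank_eq h d.symm ▸ a⟩
  | r + 1, W, N, _, h, a, b, d => by
    obtain ⟨f, hf, hn⟩ := SetLike.exists_of_lt (p := N) (q := W)
      (h.lt_of_ne fun e => by rw [e] at d; omega)
    obtain ⟨i, hi⟩ := not_forall.1 (mt (b f hf) hn)
    have k := ((φ i).domRestrict W).finrank_range_add_finrank_ker
    rw [LinearMap.ker_domRestrict, ← W.finrank_map_subtype_eq, Submodule.map_comap_subtype] at k
    have k₁ := ((φ i).domRestrict W).range.finrank_le.trans_eq (finrank_self ℂ)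
    have k₂ := Submodule.finrank_lt_finrank_of_lt (s := W ⊓ (φ i).ker) (t := W)
      (inf_le_left.lt_of_ne fun e => hi (e.ge hf).2)
    obtain ⟨c, hc⟩ := exists_fin φ r (W ⊓ (φ i).ker) N (fun g u => ⟨h u, a g u i⟩) a
      (fun g u => b g u.1) (by omega)
    exact ⟨Fin.cons i c, fun g u v => hc g ⟨u, v 0⟩ fun j => v j.succ⟩

variable (ch K) in
/-- All tests. -/
abbrev Ts : Type := (Σ j, ch.Th j × ch.Th j) ⊕ K × ch.Zt

/-- Evaluation at a point and a test. -/
def ev1 (z : ch.Pt) (t : Ts K ch) : ch.P K →ₗ[ℂ] ℂ where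
  toFun f := t.elim (fun t => f.1 t.1 z t.2) fun t => f.2 t.1 z t.2
  map_add' _ _ := by cases t <;> rfl
  map_smul' _ _ := by cases t <;> rfl

theorem evZ_eq_zero {z : ch.Pt} {f : ch.P K} : evZ z f = 0 ↔ ∀ t, ev1 z t f = 0 :=
  ⟨fun h t => by
    cases t with
    | inl t => exact congrFun (congrFun (congrArg Prod.fst h) t.1) t.2
    | inr t => exact congrFun (congrFun (congrArg Prod.snd h) t.1) t.2,
  fun h => Prod.ext (funext₂ fun j m => h (.inl ⟨j, m⟩)) (funext₂ fun k ζ => h (.inr (k, ζ)))⟩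

variable {P : Type} [NormedAddCommGroup P] [NormedSpace ℂ P] {z : P → ch.Pt} {p : P}
  (hz : AnalyticAt ℂ z p)
include hz

theorem an_u (l) {v : P → ch.E l} (hv : AnalyticAt ℂ v p) :
    AnalyticAt ℂ (fun q => (z q).2 l (v q)) p :=
  Holo.an_apply (analyticAt_pi_iff.1 (analyticAt_snd.comp hz) l) hv

theorem an_c {a : ι → ℕ} (μ : Tens ch.M a) : AnalyticAt ℂ (fun q => val μ (z q).1) p :=
  (analyticAt_val μ _).comp (analyticAt_fst.comp hz)

theorem an_pol {f : ch.P K} (hf : f ∈ ch.polF F e) (t : Ts K ch) :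
    AnalyticAt ℂ (fun q => ev1 (z q) t f) p := by
  rcases t with ⟨j, m⟩ | ⟨k, ζ⟩
  · have : ∀ g ∈ Submodule.span ℂ (ch.G1 j), AnalyticAt ℂ (fun q => g (z q) m) p := fun g hg => by
      induction hg using Submodule.span_induction with
      | mem f h =>
        obtain ⟨a, a', μ, y, rfl⟩ := h
        exact (analyticAt_const.mul (an_c hz μ)).mul (an_u hz _ analyticAt_const)
      | zero => exact analyticAt_const
      | add _ _ _ _ a b => exact a.add b
      | smul c _ _ a => exact analyticAt_const.mul a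
    exact this _ ((mem_polS.1 hf).1 j)
  · have : ∀ g ∈ Submodule.span ℂ (ch.G2 e (fun k => (F.G k).support) k),
        AnalyticAt ℂ (fun q => g (z q) ζ) p := fun g hg => by
      induction hg using Submodule.span_induction with
      | mem f h =>
        obtain ⟨a, -, v, y, μ, rfl⟩ := h
        exact (analyticAt_const.mul (Finset.analyticAt_fun_prod _ fun s _ =>
          an_u hz _ analyticAt_const)).mul (an_c hz μ)
      | zero => exact analyticAt_const
      | add _ _ _ _ a b => exact a.add b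
      | smul c _ _ a => exact analyticAt_const.mul a
    exact this _ ((mem_polS.1 hf).2 k)

theorem an_sct {x : P → ch.WF ν κ Λ} (hx : AnalyticAt ℂ x p) (t : Ts K ch) :
    AnalyticAt ℂ (fun q => ev1 (z q) t (sctF F e (x q))) p := by
  have k := fun j μ => an_u hz (some j)
    (Holo.an_apply (W.an_X (analyticAt_snd.comp hx) j) (analyticAt_const (v := μ)))
  rcases t with ⟨j, m⟩ | ⟨k', ζ⟩
  · exact ((an_c hz _).mul (k j _)).sub ((an_c hz _).mul (k j _))
  · refine AnalyticAt.congr (Finset.analyticAt_fun_sum (F.G k').support fun α _ => ?_)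
      (.of_forall fun q => ((hmg_fib F e _ _ _ _ _).trans (eval_hp F e _ _ _ _ _)).symm)
    exact (((AnalyticOnNhd.eval_mvPolynomial _ _ trivial).comp (analyticAt_fst.comp hx)).mul
      (Finset.analyticAt_fun_prod _ fun j _ => (k j _).pow _)).mul
      (Finset.analyticAt_fun_prod _ fun i _ => (((ζ i).analyticAt _).comp
        (analyticAt_pi_iff.1 (analyticAt_fst.comp hz) i)).pow _)

omit hz

/-- the smooth points are dense -/
theorem van_of_sm {x : ch.W ν} (hx : x ∈ ch.base ν) {f : ch.P K} (hf : f ∈ ch.polF F e)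
    (h : ∀ z ∈ gr x, ¬IsNode ch.o (crv x) z.1 → evZ z f = 0) {z : ch.Pt} (hz : z ∈ gr x) :
    evZ z f = 0 := by
  obtain ⟨U, a, b⟩ := exists_an_ev hx.1 z.1
  obtain ⟨n, c, hc⟩ := hx.2.2.1.nod.exists_nodes
  have t : ContinuousAt (fun y : V ch.M => (x, y)) z.1 := continuousAt_const.prodMk continuousAt_id
  have d : ContinuousAt (fun y => evZ (y, U (x, y)) f) z.1 := (continuous_evZ hf).continuousAt.comp
    (continuousAt_id.prodMk (a.continuousAt.comp t))
  rw [show z = (z.1, U (x, z.1)) from Prod.ext rfl (b.self_of_nhds _ hz)]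
  refine isClosed_singleton.mem_of_frequently_of_tendsto ((((hx.2.2.1.nod.frequently_not_orb c ⟨z, hz, rfl⟩).and_eventually
    self_mem_nhdsWithin).and_eventually (mem_nhdsWithin_of_mem_nhds (t.eventually b))).mono
      fun y k => ?_) (d.mono_left nhdsWithin_le_nhds)
  obtain ⟨u, hu⟩ := mem_crv.1 k.1.2
  exact k.2 u hu ▸ h _ hu fun g => not_exists.2 k.1.1 (hc.ex y k.1.2 g)

/-- smooth points move holomorphically -/
theorem exists_move (hc : ch.Cuts) {x : ch.W ν} (hx : x ∈ ch.base ν) {z : ch.Pt} (hz : z ∈ gr x)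
    (hn : ¬IsNode ch.o (crv x) z.1) : ∃ Z : ch.W ν → ch.Pt, AnalyticAt ℂ Z x ∧ Z x = z ∧
      ∀ᶠ y in 𝓝 x, y ∈ ch.base ν → Z y ∈ gr y := by
  obtain ⟨l, hl⟩ := hc.cut
  obtain ⟨σ, a, b⟩ := (locFam_base hl ⟨x, hx⟩).smAt ⟨z, hz, rfl⟩ hn
  obtain ⟨U, c, d⟩ := exists_an_ev hx.1 (σ (x, 0))
  have s : AnalyticAt ℂ (fun y : ch.W ν => σ (y, 0)) x :=
    b.an.comp (f := fun y => (y, (0 : ℂ))) (analyticAt_id.prod analyticAt_const)
  have t := analyticAt_id.prod s
  have m : ∀ᶠ y : ch.base ν in 𝓝 ⟨x, hx⟩, σ (y.1, 0) ∈ crv y.1 :=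
    ((continuousAt_id.prodMk continuousAt_const).eventually b.mem).mono fun _ k => k trivial
  refine ⟨fun y => (σ (y, 0), U (y, σ (y, 0))), s.prod (c.comp_of_eq t rfl),
    Prod.ext a (d.self_of_nhds z.2 (mem_of_eq_of_mem (Prod.ext a rfl) hz)).symm, ?_⟩
  filter_upwards [t.continuousAt.eventually d, eventually_nhdsWithin_iff.1
    ((eventually_nhds_subtype_iff _ ⟨x, hx⟩ fun y => σ (y, 0) ∈ crv y).1 m)] with y k₁ k₂ hy
  obtain ⟨u, hu⟩ := mem_crv.1 (k₂ hy)
  exact k₁ u hu ▸ hu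

end AnM

open AnM

theorem Std.exists_an_mod (h : ch.Std F e K₀ ℓ) (hx : x₀ ∈ ch.solF ν κ F)
    (hr : finrank ℂ (obsM F e x₀) = finrank ℂ (vanM F e x₀) + r) :
    ∃ M : ch.WF ν κ Λ → ch.P K →ₗ[ℂ] (Fin r → ℂ),
      (∀ f ∈ ch.polF F e, AnalyticAt ℂ (fun x => M x f) x₀) ∧
      AnalyticAt ℂ (fun x => M x (sctF F e x)) x₀ ∧
      (∀ᶠ x in 𝓝 x₀, x.2 ∈ ch.base _ → ∀ f ∈ vanM F e x, M x f = 0) ∧
      ∀ f ∈ obsM F e x₀, M x₀ f = 0 → f ∈ vanM F e x₀ := by
  have b := hx.1.2.1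
  have : FiniteDimensional ℂ (obsM F e x₀) := Submodule.finiteDimensional_inf_left _ _
  obtain ⟨a, ha⟩ := exists_fin (fun i : {z // z ∈ gr x₀.2 ∧ ¬IsNode ch.o (crv x₀.2) z.1} × Ts K ch =>
    ev1 i.1.1 i.2) r _ _ vanM_le_obsM
    (fun f hf i => evZ_eq_zero.1 ((mem_vanM.1 hf).2 _ i.1.2.1) _) (fun f hf k => mem_vanM.2
      ⟨hf.1, fun _ => van_of_sm b hf.1 fun z c d => evZ_eq_zero.2 fun t => k (⟨z, c, d⟩, t)⟩) hr
  choose Z z₁ z₂ z₃ using fun k => exists_move h.cuts b (a k).1.2.1 (a k).1.2.2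
  have an := fun k => (z₁ k).comp (analyticAt_snd (p := x₀))
  refine ⟨fun x => LinearMap.pi fun k => ev1 (Z k x.2) (a k).2,
    fun f hf => AnalyticAt.pi fun k => an_pol (an k) hf _,
    AnalyticAt.pi fun k => an_sct (an k) analyticAt_id _, ?_,
    fun f hf k => ha f hf fun i => z₂ i ▸ congrFun k i⟩
  filter_upwards [continuousAt_snd.eventually (eventually_all.2 z₃)] with x k c f hf
  exact funext fun i => evZ_eq_zero.1 ((mem_vanM.1 hf).2 _ (k i c)) _

end Vale.Agent.P269.Ch
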