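import Vale.Agent.P269.G3.JetA
import Vale.Agent.P269.G3.Mod
import Vale.Agent.P269.G3.KeyG
import Vale.Agent.P269.G3.KeyB0
import Vale.Agent.P269.Bas.Lv

/-!
# Integrals that localise at a point given by jets
-/

set_option linter.unusedSectionVars false

namespace Vale.Agent.P269.Ch

open Set Function Topology Filter P291Z Orb Module

variable {S Λ R J K ι ν κ : Type} [Fintype S] [Fintype Λ] [Fintype R] [Fintype J] [Fintype K]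
  [Fintype ι] [DecidableEq ι] [Fintype ν] [Fintype κ] {ch : Ch ι J} {F : Fam S Λ R J K}
  {e : K → ι → ℕ} {K₀ : Set K} {ℓ : R → ι → ℤ} {S₀ O M : Set (ch.WF ν κ Λ)} {d n₀ : ℕ}

theorem GZ.jt_vl {Z : Set (ch.WF ν κ Λ)} (h : GZ F ℓ Z) (n₁ n : Mk ν κ) (j : J) :
    (ch.sdψ S Λ n₁).Jt (actF F.toWt) (fun s => chT (F.wt j) (F.w j) (θv ℓ n s)) 0
      (fun q => (vl q.1 n).2 j) (Prod.fst ⁻¹' ch.solF ν κ F) :=
  ⟨(hm_θv ℓ n).comp (hm_chT _ _), (continuous_apply j).comp_continuousOn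
    ((continuousOn_vl n).comp continuousOn_fst fun _ a => a).snd, fun _ a _ _ b =>
      ⟨actF_mem_solF h.inv a b, (congrArg (·.2 j) (vl_actF h.wt a b n)).trans (F.actT_snd _ _ j)⟩,
    fun _ _ _ _ b _ _ => ⟨b, by rw [pow_zero, one_mul]⟩⟩

theorem GZ.jt_jF {Z : Set (ch.WF ν κ Λ)} (h : GZ F ℓ Z) (n : Mk ν κ) (j : J) (r : ℕ) :
    (ch.sdψ S Λ n).Jt (actF F.toWt) (fun s => chT (F.wt j) (F.w j) (θv ℓ n s)) r (jF n j r)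
      (jD F n j r) :=
  ⟨(hm_θv ℓ n).comp (hm_chT _ _), continuousOn_jF h.cuts n j r, fun _ a _ _ b =>
    jF_act h.inv h.wt a b, fun _ _ _ _ b c e => jF_smul b c e⟩

theorem Vd.pos_jet (h : Vd F e S₀ O M d) (hs : ch.Std F e K₀ ℓ) [CompactSpace (ModS F S₀)]
    {ι₀ ι₁ : Type} [Fintype ι₀] [Fintype ι₁] (n₁ : Mk ν κ) (n : ι₀ → Mk ν κ) (j₀ : ι₀ → J)
    (j₁ : ι₁ → J) (r : ι₁ → ℕ) {A : Set (ModS F S₀)} (hA : IsClosed A)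
    (y : ↥(ch.solF ν κ F ∩ S₀)) (hy : y.1 ∈ M) (hyA : Quo.mk _ y ∈ A)
    (lev : ∀ x : ↥(ch.solF ν κ F ∩ S₀), Quo.mk _ x ∈ A → ∀ q, (∀ q', r q' < r q →
      Vo x.1.2 (j₁ q') (x.1.2.p n₁) (r q' + 1)) → Vo x.1.2 (j₁ q) (x.1.2.p n₁) (r q))
    (iff : ∀ x : ↥(ch.solF ν κ F ∩ S₀), Quo.mk _ x ∈ A → (∀ q, (vl x.1 (n q)).2 (j₀ q) = 0) →
      (∀ q, Vo x.1.2 (j₁ q) (x.1.2.p n₁) (r q + 1)) → Quo.mk (actF F.toWt) x = Quo.mk _ y)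
    (z₀ : ∀ q, (vl y.1 (n q)).2 (j₀ q) = 0) (z₁ : ∀ q, Vo y.1.2 (j₁ q) (y.1.2.p n₁) (r q + 1))
    {a : Coch (ModS F S₀)} (ha : supp (δ a) = ∅) (hs' : supp a ⊆ A) {G : C(ModS F S₀, Fin n₀ → ℂ)}
    (hG : ∀ z ∈ A, G z = 0) (hI : Isol A (G ⁻¹' {0})) (hL : LCoh A a (pull G (tau n₀)))
    {g : ch.WF ν κ Λ → Fin n₀ → ℂ} (hg : AnalyticAt ℂ g y.1)
    (hg' : ∀ᶠ x in 𝓝 y.1, ∀ hx, G (Quo.mk _ ⟨x, hx⟩) = g x)
    (hd : (d : ℤ) = n₀ + Fintype.card ι₀ + Fintype.card ι₁ + ch.rk F ℓ K₀)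
    {Ψ : Hev (ModS F S₀)} {L₀ : ι₀ → Hev (ModS F S₀)} {L₁ : ι₁ → Hev (ModS F S₀)}
    (hΨ : Ψ.1 = F.cl _ (.psi n₁)) (h₀ : ∀ q, (L₀ q).1 = lcv F ℓ _ (n q) (j₀ q))
    (h₁ : ∀ q, (L₁ q).1 = lcv F ℓ _ n₁ (j₁ q)) :
    Loc.intg (virF F e S₀) (hcls a * ((∏ q, L₀ q) * ∏ q, (r q • Ψ + L₁ q)).1) ≠ 0 := by
  classical
  obtain ⟨k, i, hk, -⟩ := h.exists_isKP hs
  have hz := h.gz hs
  have hb : ∀ x ∈ O, x.2 ∈ ch.base (Mk ν κ) := fun x a => (h.adm (h.dom.subset a)).1.2.1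
  have t := h.dom.sub y.2
  have a1 : finrank ℂ (vanM F e y.1 ⊓ ch.polF F e : Submodule ℂ (ch.P K)) = k.v :=
    hk.finrank_van ⟨y, t⟩
  have a2 : finrank ℂ (obsM F e y.1 ⊓ ch.polF F e : Submodule ℂ (ch.P K)) = k.v + k.r :=
    hk.finrank_obs (t := ⟨y, t⟩) ((h.dom.mem_Zs hk).2 y.2)
  have a3 := hs.r_eq hk (t := ⟨y, t⟩) y.2.1
  rw [show vanM F e y.1 ⊓ _ = _ from inf_eq_left.2 inf_le_left] at a1
  rw [show obsM F e y.1 ⊓ _ = _ from inf_eq_left.2 inf_le_left, ← a1] at a2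
  obtain ⟨L, L1, L2, L3, L4⟩ := hs.exists_an_mod y.2.1 a2
  obtain ⟨u, Φ, u1, u2, u3⟩ := an_jF hs.cuts n₁ y.2.1
  choose Φ₀ v1 v2 using fun q => an_vl hs.cuts (n q) y.2.1
  have lv : ∀ x : ↥(ch.solF ν κ F ∩ S₀), Quo.mk _ x ∈ A → ∀ v ∈ (ch.sdψ S Λ n₁).B x,
      v ∉ (ch.sdψ S Λ n₁).N x → ∀ m, (∀ q, r q < m → jF n₁ (j₁ q) (r q) (x.1, v) = 0) →
        ∀ q, r q < m → Vo x.1.2 (j₁ q) (x.1.2.p n₁) (r q + 1) := fun x a v b c m => by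
    induction m with
    | zero => exact fun _ _ e => nomatch e
    | succ m ih => exact fun e q e' => (jF_eq_zero ⟨x.2.1, lev x a q fun q' e'' =>
        ih (fun q e' => e q (by omega)) q' (by omega), b, c⟩).1 (e q e')
  have uy := u2.self_of_nhds (hb _ t)
  have := h.dom.pos h.cyc hk (hs.cuts.okψ hb n₁) (ι := ι₀ ⊕ ι₁)
    (c := Sum.elim (fun q s => chT (F.wt (j₀ q)) (F.w (j₀ q)) (θv ℓ (n q) s))
      fun q s => chT (F.wt (j₁ q)) (F.w (j₁ q)) (θv ℓ n₁ s)) (r := Sum.elim 0 r)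
    (f := Sum.elim (fun q x => (vl x.1 (n q)).2 (j₀ q)) fun q => jF n₁ (j₁ q) (r q))
    (T := Sum.elim (fun _ => Prod.fst ⁻¹' ch.solF ν κ F) fun q => jD F n₁ (j₁ q) (r q))
    (Sum.rec (fun q => hz.jt_vl n₁ _ _) fun q => hz.jt_jF n₁ _ _) (Sum.elim 0 r) hA y hy hyA
    (fun x a v b c => Sum.rec (fun _ _ => x.2.1) fun q e => ⟨x.2.1, lev x a q
      (lv x a v b c (r q) fun q' => e (.inr q')), b, c⟩)
    (fun x a v b c e => iff x a (fun q => e (.inl q)) fun q =>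
      lv x a v b c (r q + 1) (fun q _ => e (.inr q)) q (Nat.lt_succ_self _))
    u1 (u2.mono fun x a b => a (hb x b))
    (Φ := Sum.elim (fun q x => (Φ₀ q x).2 (j₀ q)) fun q => Φ (j₁ q) (r q))
    (Sum.rec (fun q => (analyticAt_pi_iff.1 (analyticAt_snd.comp (v1 q)) _ :)) fun q => (u3 _ _).1)
    (Sum.rec (fun q => (v2 q).mono fun x a b => congrArg (·.2 (j₀ q)) (a b)) fun q => (u3 _ _).2)
    (Sum.rec z₀ fun q => (jF_eq_zero ⟨y.2.1, (z₁ q).mono (Nat.le_succ _), uy⟩).2 (z₁ q))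
    L1 L2 (L3.mono fun x a b => a (hb x b)) L4 ha hs' hG hI hL hg hg'
    (by rw [Fintype.card_sum]; omega) (Ψ := Ψ) (C := Sum.elim L₀ L₁) (hΨ.trans (hz.cl_psi n₁))
    (Sum.rec h₀ h₁)
  rw [h.virF_eq hk]
  refine fun e => this (Eq.trans (congrArg (fun c : Hev _ => Loc.intg _ (hcls a * c.1)) ?_) e)
  rw [Fintype.prod_sum_type]
  simp only [Sum.elim_inl, Sum.elim_inr, Pi.zero_apply, zero_smul, zero_add]

end Vale.Agent.P269.Ch
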