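import Vale.Agent.P269.G3.KeyA
import Vale.Agent.P269.G3.KeyB
import Vale.Agent.P269.G3.Pt
import Vale.Agent.P269.G3.Cl

/-!
# The basic invariants of a cap do not vanish
-/

set_option linter.unusedSectionVars false

namespace Vale.Agent.P269

open Set Function Topology Filter P291Z Orb

namespace G3K

theorem mul_prod {C E ι : Type} [CommRing C] [Ring E] (φ : C →+* E) {P : E} {a L : ι → C}
    (h : ∀ q, P * φ (L q) = 0) (s : Finset ι) :
    ∀ c, P * φ (c * ∏ q ∈ s, (a q + L q)) = P * φ (c * ∏ q ∈ s, a q) := by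
  classical
  induction s using Finset.induction_on with
  | empty => exact fun _ => rfl
  | insert q s hq ih =>
    intro c
    rw [Finset.prod_insert hq, Finset.prod_insert hq, ← mul_assoc, ih,
      show c * (a q + L q) * ∏ q ∈ s, a q = c * (a q * ∏ q ∈ s, a q) + L q * (c * ∏ q ∈ s, a q) by
        ring, map_add, mul_add, map_mul φ (L q), ← mul_assoc P, h, zero_mul, add_zero]

variable {X Y : Type} [TopologicalSpace X] [TopologicalSpace Y]

theorem ind_van {U : Set X} {x : X} {c : ℂ} (h : ∀ᶠ y in 𝓝 x, U.indicator 1 y = c) :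
    ind U - c • 1 ∈ Van x := by
  have e : ind U = fn (U.indicator 1) := by
    refine Subtype.ext (funext fun l => ?_)
    rcases l with _ | ⟨y, _ | ⟨z, l⟩⟩
    · simp [ind, fn]
    · by_cases h : y ∈ U <;> simp [ind, fn, h]
    · simp [ind, fn]
  rw [e, ← fn_const, ← fn_sub, fn_van]
  exact h.mono fun _ => sub_eq_zero.2

/-- the pull-back of a point class to an open and closed set -/
theorem loc_pt {U : Set X} (hU : IsClopen U) (f : C(X, Y)) {y : Y} {a t : Coch Y} {B : Set Y}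
    (h1 : supp a ⊆ {y}) (h2 : Isol {y} B) (h3 : LCoh {y} a t) :
    supp (ind U * pull f a) ⊆ U ∩ f ⁻¹' {y} ∧ Isol (U ∩ f ⁻¹' {y}) (f ⁻¹' B) ∧
      LCoh (U ∩ f ⁻¹' {y}) (ind U * pull f a) (pull f t) := by
  have e : ∀ {B}, Isol {y} B → Isol (U ∩ f ⁻¹' {y}) (f ⁻¹' B) := fun h x hx =>
    ((h.preimage f.continuous x hx.2).and (hU.isOpen.mem_nhds hx.1)).mono fun _ b c => ⟨b.2, b.1 c⟩
  refine ⟨fun x hx => ⟨by_contra fun b => ?_, h1 (supp_pull f.continuous a (supp_mul _ _ hx).2)⟩,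
    e h2, (LCoh.of_van fun x hx => ?_).trans
      ((h3.pull f.continuous).mono inter_subset_right (e (.of_subset subset_rfl)))⟩
  · have := ind_van (c := 0) (mem_of_superset (hU.compl.isOpen.mem_nhds b) fun _ c =>
      indicator_of_notMem c _)
    rw [zero_smul, sub_zero] at this
    exact this (supp_mul _ _ hx).1
  · have := Van.mul_right (ind_van (c := 1) (mem_of_superset (hU.isOpen.mem_nhds hx.1) fun _ c =>
      indicator_of_mem c _)) (pull f a)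
    rwa [one_smul, sub_mul, one_mul] at this

theorem intg_eq_zero {ι : Type} [Fintype ι] {n : ℕ} {v : BM X} {s c : H X} {Ψ : Ch.Hev X}
    {L₀ : Fin n → Ch.Hev X} {L : ι → Ch.Hev X} (r : ι → ℕ) (h : ∀ q, s * c * (L q).1 = 0)
    (e : Loc.intg v (s * (Ψ.1 ^ Fintype.card ι * c * (List.ofFn fun q => (L₀ q).1).prod)) = 0) :
    Loc.intg v (s * c * ((∏ q, L₀ q) * ∏ q, (r q • Ψ + L q)).1) = 0 := by
  refine (congrArg _ (mul_prod (Ch.Hev X).val.toRingHom h _ _)).trans ?_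
  rw [Ch.Hev.commute (pow_mem Ψ.2 _), mul_assoc c, ← mul_assoc s] at e
  rw [Finset.prod_smul, Finset.prod_const, mul_smul_comm, map_nsmul, mul_smul_comm, map_nsmul,
    mul_comm (∏ q, L₀ q), map_mul (Ch.Hev X).val.toRingHom, map_pow, ← List.prod_ofFn (f := L₀), map_list_prod,
    List.map_ofFn]
  exact smul_eq_zero_of_right _ e

end G3K

namespace Fam

variable {Λ R J K : Type} [Fintype Λ] [Fintype R] [Fintype J] [Fintype K] [DecidableEq R]
  [DecidableEq J] {F : Fam Empty Λ R J K} {l : Λ → ℂ} {b : J} {ρ : ℕ} {I : Fin (ρ + 1) → J}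
  {φ χ : R → ℤ} {K₀ : Set K} {k μ α n₀ : ℕ}

theorem Cap.key (h : F.Cap l b I φ χ K₀) (hk : F.Big k) (hW : St.Well) (hμ : 0 < μ) (hα : α ≤ ρ)
    (hn : Tq.Dim F.actT F.cone n₀) (x₀ : F.cone) (h0 : ∀ a, x₀.1.2 (I a) = 0) :
    ∃ a, supp (δ a) = ∅ ∧ supp a ⊆ {Quo.mk F.actT x₀} ∧
      F.T2 k b φ μ ((ρ + 1) * μ - 1 - α) (hcls a) (F.lcs _ ((List.ofFn I).take α)) ≠ 0 := by
  obtain ⟨μ, rfl⟩ := Nat.exists_eq_add_one_of_ne_zero hμ.ne'
  obtain ⟨β, rfl⟩ := Nat.exists_eq_add_of_le hα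
  have := h.nice.toGood.fp
  have := h.nice.toGood.fp_dvs (Pi.single b 1)
  obtain ⟨a, G, g, a1, a2, a3, a4, a5, a6, a7, a8⟩ := hn.exists_pt x₀
  refine ⟨a, a1, a2, fun e => ?_⟩
  obtain ⟨D, ⟨eT, hD⟩, hS⟩ := (((h.T2_eq hk hW hμ _ _ _).and (F.eventually_bigD k)).and
    (Sel.conn (F := F) (κ := Fin 0) (k := k) (g := 0) (d := (μ + 1) • φ) (u := u2 b (μ + 1))).2).exists
  obtain ⟨U, n, ok, hV, -, hd⟩ := h.pack hk hn hD (μ + 1)
  obtain ⟨y, y1, y2, y3, y4, y5⟩ := h.exists_mx hk hD hμ hα x₀.2 h0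
  have := h.compact_mod hk hD (μ := μ + 1)
  have hz := hV.gz ok.toStd
  have vB := h.vl_pB hk hD hμ
  let f := (hz.eqh_vl pA (hz.vl_cone pA)).toEqv.qm
  obtain ⟨b1, b2, b3⟩ := G3K.loc_pt hS f a2 a5 a6
  have b4 : ∀ x : F.Z2 k D b φ (μ + 1), f (Quo.mk _ x) = Quo.mk _ x₀ →
      ∃ t, IsUnit t ∧ Ch.vl x.1 pA = F.actT t x₀ := fun x hx =>
    let ⟨t, ht⟩ := (Holo.Sp.mk_eq_iff (act := F.actT) (x := x₀)
      (y := ⟨_, hz.vl_cone pA x x.2⟩)).1 hx.symm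
    ⟨t, t.isUnit, (congrArg Holo.Sp.val ht).symm⟩
  have lv : ∀ x : F.Z2 k D b φ (μ + 1), f (Quo.mk _ x) = Quo.mk _ x₀ → ∀ a, ∀ s ≤ μ,
      (∀ s' < s, Ch.Vo x.1.2 (I a) (x.1.2.p pA) (s' + 1 + 1)) →
      Ch.Vo x.1.2 (I a) (x.1.2.p pA) (s + 1) := by
    rintro x hx a (_ | s) - c
    · obtain ⟨t, -, ht⟩ := b4 x hx
      exact (Ch.vo_one x.2.1).2 (by rw [ht, Wt.actT_snd, h0, mul_zero])
    · exact c s s.lt_succ_self
  obtain ⟨Φ, c1, c2⟩ := Ch.an_vl ok.cuts pA y.2.1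
  have c3 : Φ y = x₀ := (c2.self_of_nhds y.2.1).symm.trans y2
  let j₁ : Fin (α + β + 1) × Fin μ ⊕ Fin β → Fin (α + β + 1) :=
    Sum.elim Prod.fst fun t => ⟨α + t, by omega⟩
  let r : Fin (α + β + 1) × Fin μ ⊕ Fin β → ℕ := Sum.elim (fun q => q.2 + 1) fun _ => μ + 1
  have m : ∀ n j, Ch.lcv F ℓs (F.Z2 k D b φ (μ + 1)) n j ∈ Ch.Hev _ := fun n j =>
    (hz.cl_lc n (hz.vl_cone n) j).symm.trans (hz.cl_ev n (hz.vl_cone n) _) ▸
      Ch.map_mem_Hev _ (Wt.lc_mem _ _)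
  have hα' : α ≤ α + β + 1 := by omega
  have hc : Fintype.card (Fin (α + β + 1) × Fin μ ⊕ Fin β) = (α + β + 1) * (μ + 1) - 1 - α := by
    rw [Fintype.card_sum, Fintype.card_prod, Fintype.card_fin, Fintype.card_fin, Fintype.card_fin,
      mul_add_one]
    omega
  refine hV.pos_jet ok.toStd pA (fun _ : Fin α => pB) (fun q => I (q.castLE hα')) (fun q => I (j₁ q))
    r (hS.isClosed.inter (isClosed_singleton.preimage f.continuous)) y
    ⟨⟨y1, (hV.dom.sub y.2).1.2⟩, (hV.dom.sub y.2).2⟩ ⟨y3, congrArg (Quo.mk _) (Subtype.ext y2)⟩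
    (fun x hx q c => ?_) (fun x hx c c' => y5 x hx.1 (b4 x hx.2) ⟨fun a => lv x hx.2 a μ le_rfl
      fun s hs => c' (.inl (a, ⟨s, hs⟩)), fun a p p' => ?_, fun a p => c ⟨a, p⟩⟩)
    (fun q => y4.van _ q.2) ?_ (cocycle_mul (cocycle_ind' hS) (cocycle_pull f.continuous a1)) b1
    (G := G.comp f) (fun z p => (congrArg G p.2).trans a4) b2 (by rwa [pull_pull] at b3)
    (g := g ∘ Φ) (a7.comp_of_eq c1 c3) ?_ ?_ (Ψ := ⟨_, hz.cl_psi_mem pA⟩)
    (L₀ := fun q => ⟨_, m pB _⟩) (L₁ := fun q => ⟨_, m pA _⟩) rfl (fun _ => rfl) (fun _ => rfl) ?_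
  · rcases q with ⟨a, s⟩ | t
    · exact lv x hx.2 a s s.2.le fun s' p => c (.inl (a, ⟨s', p.trans s.2⟩)) (Nat.succ_lt_succ p)
    · exact lv x hx.2 _ μ le_rfl fun s' p => c (.inl (_, ⟨s', p⟩)) (Nat.succ_lt_succ p)
  · have := Fin.val_lt_last p'
    have := c' (.inr ⟨a - α, by omega⟩)
    rwa [show j₁ (.inr ⟨a - α, _⟩) = a from Fin.ext (Nat.add_sub_cancel' p)] at this
  · rintro (⟨a, s⟩ | t)
    · exact (y4.ord a).mono (Nat.succ_le_succ s.2)
    · exact y4.ord' _ (Nat.le_add_right _ _) (Fin.ne_of_val_ne (Nat.add_lt_add_left t.2 α).ne)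
  · filter_upwards [c2, c1.continuousAt.eventually (c3.symm ▸ a8)] with x p p' hx
    exact (congrArg (fun z => G (Quo.mk _ z)) (Subtype.ext (p hx.1))).trans
      (p' (p hx.1 ▸ hz.vl_cone pA x hx))
  · rw [hd hμ ⟨_, y.2.1, y1⟩, Fintype.card_fin, Fintype.card_sum, Fintype.card_prod,
      Fintype.card_fin, Fintype.card_fin, Fintype.card_fin]
    push_cast
    ring
  have w : ∀ j, F.wt j = 0 := fun _ => Subsingleton.elim _ _
  rw [hcls_mul (cocycle_ind' hS) (cocycle_pull f.continuous a1), ← H.map_hcls f a1]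
  refine G3K.intg_eq_zero r (fun q => ?_) ?_
  · refine (congrArg (_ * ·) ((hz.cl_lc pA (hz.vl_cone pA) _).symm.trans
      (hz.cl_ev pA (hz.vl_cone pA) _))).trans ?_
    rw [mul_assoc, ← map_mul, hn.H_eq_zero ((hcls_isDeg a3).mul (Wt.lc_deg _ _)) (by omega),
      map_zero, mul_zero]
  rw [e, hz.cl_ev pA (hz.vl_cone pA), hz.cl_ev pB vB, ← Fin.ofFn_take_eq_take_ofFn hα', Wt.lcs,
    map_list_prod, List.map_map, List.map_ofFn, ← hc] at eT
  refine Eq.trans (congrArg (fun z => Loc.intg _ (_ * (_ * (List.ofFn z).prod)))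
    (funext fun q => ?_)) eT.symm
  exact (hz.cl_lc pB vB _).symm.trans ((hz.cl_ev pB vB _).trans (by rw [w]; rfl))

end Fam

end Vale.Agent.P269
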