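import Vale.Agent.P269.G3.Key

/-!
# Nondegeneracy of the two point invariants of a cap
-/

set_option linter.unusedSectionVars false

namespace Vale.Agent.P269

open Set Function Topology Filter P291Z Holo Mono

namespace G3Nd

variable {A W : Type} [NormedRing A] [NormedAlgebra ℂ A] [NormedAddCommGroup W] [NormedSpace ℂ W]
  {act : A → W → W} {S₁ S S' : Set W} {c : A → ℂ}

variable (act c S) in
/-- the line bundle of a character -/
abbrev TL : Type := Tot act (fun t (z : ℂ) => c t * z) S (fun _ => ⊤) fun _ => ⊥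

/-- restriction of the line bundle -/
def ti (e : S ⊆ S') : TL act S c → TL act S' c :=
  Quot.map (fun x => ⟨x.1, e x.2.1, x.2.2⟩) fun _ _ h => h

/-- the zero section -/
def z0 : Quo act S → TL act S c :=
  Quot.map (fun x => ⟨(x.1, 0), x.2, trivial⟩) fun _ _ ⟨a, h, e⟩ => ⟨a, h, e, by simp⟩

theorem sec_eq : sec act (fun t (z : ℂ) => c t * z) S (fun _ => ⊤) (fun _ => ⊥) 0 = z0 :=
  funext fun z => (congrArg z0 (Tq.mk_out z)).symm ▸
    congrArg (Quot.mk _) (Subtype.ext (Prod.ext rfl (ite_self _)))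

theorem continuous_z0 : Continuous (z0 : _ → TL act S c) :=
  continuous_quot_lift _ (continuous_quot_mk.comp
    ((continuous_subtype_val.prodMk continuous_const).subtype_mk _))

theorem thom_pull (hc : Tq.Hm c) (e : S ⊆ S') {t : Coch (TL act S' c)} (ht : IsThomOf _ _ _ _ _ t) :
    IsThomOf _ _ _ _ _ (pull (ti e) t) := by
  refine IsThom.pull ht (continuous_quot_lift _ (continuous_quot_mk.comp
    (continuous_subtype_val.subtype_mk _))) ?_ ?_
  · rintro ⟨x⟩ ⟨y, h1, h2⟩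
    let P : TL act S' c → Prop := Quot.lift (fun x => x.1.2 = 0) fun x y ⟨a, h, _, k⟩ => by
      rw [sub_eq_zero.1 k, mul_eq_zero, or_iff_right (hc.isUnit h).ne_zero]
    exact ⟨x, (congrArg P h2).mpr h1, rfl⟩
  · rintro r φ ⟨x, hx, ℓ, h1, h2, h3⟩
    exact ⟨x, e hx, ℓ, h1, h2, fun v => let ⟨_, k⟩ := h3 v; ⟨_, congrArg (ti e) k⟩⟩

/-- naturality of the first Chern class for an arbitrary intermediate set -/
theorem map_lcq [FiniteDimensional ℂ A] [FiniteDimensional ℂ W] [IsAct act univ] [FP act S₁]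
    [FP act S'] (hc : Tq.Hm c) (e₁ : S₁ ⊆ S) (e : S ⊆ S') :
    H.map (qinc act e₁) (Tq.lcq act S c) = Tq.lcq act S₁ c := by
  have m := Tq.isMod_char (Tq.pres act S₁) (χ := hc.ρ) fun _ => rfl
  obtain ⟨_, a⟩ := (Tq.isMod_char (Tq.pres act S') (χ := hc.ρ) fun _ => rfl).exists_isThomOf
  have ht := Classical.epsilon_spec ⟨_, thom_pull hc e a⟩
  have k := fun t ht => (m.cohom_sec (t := t) (Ch.VB.isSec_zero _) m.exists_zero ht).hcls_eq
    (Ch.IsMod.isCo_eul _).cocycle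
  refine .trans ?_ ((k _ (thom_pull hc e₁ ht)).trans
    (k _ (Classical.epsilon_spec m.exists_isThomOf)).symm)
  rw [Tq.lcq, eulerC, sec_eq, H.map_hcls _ (cocycle_pull continuous_z0 ht.1), pull_pull]
  refine congrArg hcls (.trans (congrArg (fun f => pull f _) ?_) (pull_pull _ _ _).symm)
  exact (funext fun z => by obtain ⟨x⟩ := z; rfl).trans (congrArg (ti e₁ ∘ ·) sec_eq.symm)

theorem inj {ρ m m' a a' : ℕ} (h : a ≤ ρ) (h' : a' ≤ ρ)
    (e : (ρ + 1) * (m + 1) - 1 - a = (ρ + 1) * (m' + 1) - 1 - a') : m = m' ∧ a = a' := by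
  rw [Nat.mul_succ, Nat.mul_succ] at e
  obtain k | rfl | k := lt_trichotomy m m'
  · have := Nat.mul_le_mul_left (ρ + 1) k
    rw [Nat.mul_succ] at this
    omega
  · omega
  · have := Nat.mul_le_mul_left (ρ + 1) k
    rw [Nat.mul_succ] at this
    omega

end G3Nd

namespace Wt

variable {S Λ R J : Type} [Fintype S] [Fintype Λ] [Fintype R] [Fintype J] {F : Wt S Λ R J}
  {A₁ A A' : Set ((Λ → ℂ) × (J → ℂ))} [FP F.actT A₁]

theorem lcs_deg (l : List J) : H.IsDeg (2 * l.length) (F.lcs A₁ l) := by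
  induction l with
  | nil => exact (hcls_one (X := F.X A₁) ▸ hcls_isDeg isDeg_one : H.IsDeg 0 1)
  | cons j l ih =>
    rw [List.length_cons, Nat.cast_succ, mul_add, mul_one, add_comm]
    exact (lc_deg 0 _).mul ih

theorem rs_lcs [FP F.actT A'] (e₁ : A₁ ⊆ A) (e : A ⊆ A') (l : List J) :
    F.rs e₁ (F.lcs A l) = F.lcs A₁ l := by
  rw [lcs, map_list_prod, List.map_map]
  exact congrArg (fun f => (l.map f).prod) (funext fun _ => G3Nd.map_lcq (hm_chT _ _) e₁ e)

end Wt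

namespace Fam

variable {Λ R J K : Type} [Fintype Λ] [Fintype R] [Fintype J] [Fintype K] [DecidableEq R]
  [DecidableEq J] {F : Fam Empty Λ R J K} {l : Λ → ℂ} {b : J} {ρ : ℕ} {I : Fin (ρ + 1) → J}
  {φ χ : R → ℤ} {K₀ : Set K} {k : ℕ}

theorem Cap.nd (h : F.Cap l b I φ χ K₀) (hk : F.Big k) (hW : St.Well) {A' : Set _}
    (e : A' ⊆ F.cone) (e' : F.dvs (Pi.single b 1) ⊆ A') {Z : Type} [TopologicalSpace Z]
    {π : C(F.X F.cone, Z)} (fib : ∀ z z' : F.cone, (∀ j, F.w j ⬝ᵥ φ = 0 → z.1.2 j = z'.1.2 j) →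
      π (Quo.mk F.actT z) = π (Quo.mk F.actT z'))
    (far : ∀ γ, F.lcs _ (List.ofFn I) * H.map π γ = 0 → F.rs e (H.map π γ) = 0)
    (y : ℕ →₀ H (F.X A')) (span : ∀ m, ∃ γ : Fin (ρ + 1) → H Z,
      y m = ∑ α, F.rs e (H.map π (γ α)) * F.lcs A' ((List.ofFn I).take α))
    (hy : ∀ n s, (y.sum fun m a =>
      F.T2 k b φ (m + 1) n (F.lcs _ (List.ofFn I) * s) (F.rs e' a)) = 0) : y = 0 := by
  classical
  have := h.nice.toGood.fp
  have := h.nice.toGood.fp_dvs (Pi.single b 1)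
  have := h.compact
  obtain ⟨n₀, hn⟩ := h.nice.exists_dim
  choose γ hγ using span
  choose T hT using fun m n => h.exists_T2 hk hW (Nat.succ_pos m) n
  have dg : ∀ α : Fin (ρ + 1), H.IsDeg (2 * (α : ℕ))
      (F.lcs (F.dvs (Pi.single b 1)) ((List.ofFn I).take α)) := fun α => by
    have := Wt.lcs_deg (F := F.toWt) (A₁ := F.dvs (Pi.single b 1)) ((List.ofFn I).take α)
    rwa [List.length_take, List.length_ofFn, min_eq_left α.2.le] at this
  have le : ∀ m, ρ + 1 ≤ (ρ + 1) * (m + 1) := fun m => Nat.le_mul_of_pos_right _ m.succ_pos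
  have cm : ∀ s g, F.lcs F.cone (List.ofFn I) * s * g = s * (F.lcs _ (List.ofFn I) * g) :=
    fun s g => by rw [Ch.Hev.commute (Ch.mem_Hev (Wt.lcs_deg _)) s, mul_assoc]
  by_contra y0
  obtain ⟨⟨m, α⟩, a, mn⟩ := ((y.support ×ˢ Finset.univ).filter fun q : ℕ × Fin (ρ + 1) =>
      F.lcs _ (List.ofFn I) * H.map π (γ q.1 q.2) ≠ 0).exists_min_image
      (fun q => (ρ + 1) * (q.1 + 1) - 1 - q.2) (by
    obtain ⟨m, a⟩ := Finsupp.support_nonempty_iff.2 y0
    by_contra d
    refine Finsupp.mem_support_iff.1 a ((hγ m).trans (Finset.sum_eq_zero fun α _ => ?_))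
    rw [far _ (by_contra fun u => d ⟨(m, α), Finset.mem_filter.2
      ⟨Finset.mk_mem_product a (Finset.mem_univ _), u⟩⟩), zero_mul])
  obtain ⟨a1, a2⟩ := Finset.mem_filter.1 a
  obtain ⟨s, hs⟩ := hn.exists_mul_ne ((T m ((ρ + 1) * (m + 1) - 1 - α)).flip
    (F.lcs _ ((List.ofFn I).take α))) (fun p c hc u => (hT ..).trans
      (h.T2_deg hk hW m.succ_pos hn hc (dg α) (by
        have := le m
        have := α.2
        rw [← Nat.cast_succ ρ, ← Nat.cast_mul, Nat.succ_eq_add_one, Nat.succ_eq_add_one]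
        omega))) (fun U hU u => by
      obtain ⟨x, x1, x2⟩ := h.exists_far hU u
      obtain ⟨c, c1, c2, c3⟩ := h.key hk hW m.succ_pos (Nat.lt_succ_iff.1 α.2) hn x x2
      exact ⟨_, x1, c, c1, c2, (hT ..).trans_ne c3⟩) a2
  have z : ∀ m' ∈ y.support, ∀ α' : Fin (ρ + 1), (m', α') ≠ (m, α) →
      T m' ((ρ + 1) * (m + 1) - 1 - α) (F.lcs _ (List.ofFn I) * s * H.map π (γ m' α'))
        (F.lcs _ ((List.ofFn I).take α')) = 0 := fun m' u α' v => by
    by_cases d : F.lcs _ (List.ofFn I) * H.map π (γ m' α') = 0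
    · rw [cm, d, mul_zero, map_zero, LinearMap.zero_apply]
    have lt := (mn (m', α') (Finset.mem_filter.2
      ⟨Finset.mk_mem_product u (Finset.mem_univ _), d⟩)).lt_of_ne fun q =>
      let ⟨q1, q2⟩ := G3Nd.inj (Nat.lt_succ_iff.1 α.2) (Nat.lt_succ_iff.1 α'.2) q
      v (Prod.ext q1.symm (Fin.ext q2.symm))
    refine H.induction_deg (P := fun c => T m' _ c _ = 0) _ (by rw [map_zero, LinearMap.zero_apply])
      (fun c c' u u' => by rw [map_add, LinearMap.add_apply, u, u', add_zero]) fun p => ?_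
    by_cases q : 2 * n₀ < p
    · rw [hn.H_eq_zero (H.isDeg_comp p _) q, map_zero, LinearMap.zero_apply]
    refine (hT ..).trans (h.T2_deg hk hW m'.succ_pos hn (H.isDeg_comp p _) (dg α') ?_)
    have := le m'
    have := α'.2
    rw [← Nat.cast_succ ρ, ← Nat.cast_mul, Nat.succ_eq_add_one, Nat.succ_eq_add_one]
    dsimp only at lt
    omega
  have ex : ∀ m' n, F.T2 k b φ (m' + 1) n (F.lcs _ (List.ofFn I) * s) (F.rs e' (y m')) =
      ∑ α' : Fin (ρ + 1), T m' n (F.lcs _ (List.ofFn I) * s * H.map π (γ m' α'))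
        (F.lcs _ ((List.ofFn I).take α')) := fun m' n => by
    rw [← hT, hγ, map_sum, map_sum]
    refine Finset.sum_congr rfl fun α' _ => ?_
    rw [map_mul (F.rs e'), Wt.rs_rs, Wt.rs_lcs e' e, hT, hT, h.T2_move hk hW m'.succ_pos fib]
  have := hy ((ρ + 1) * (m + 1) - 1 - α) s
  rw [Finsupp.sum, Finset.sum_eq_single_of_mem m (Finset.mem_product.1 a1).1 fun m' u v =>
    (ex ..).trans (Finset.sum_eq_zero fun α' _ => z m' u α' fun q => v (congrArg Prod.fst q)), ex,
    Finset.sum_eq_single_of_mem α (Finset.mem_univ _) fun α' _ v =>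
      z m (Finset.mem_product.1 a1).1 α' fun q => v (congrArg Prod.snd q), cm] at this
  exact hs this

end Fam

end Vale.Agent.P269
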