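import Vale.Agent.P269.Orb.Vir2
import Vale.Agent.P269.Orb.Deg
import Vale.Agent.P269.Orb.TZ
import Vale.Agent.P269.Ch.Chern

/-!
# Positivity of the contribution of an isolated zero
-/

namespace Vale.Agent.P269.Ch

open Set Function Topology Filter P291Z Orb

variable {Y Y' : Sp} {Z ι : Type} [TopologicalSpace Z]

/-- The points over `A` where the functions of height smaller than that of `q` vanish. -/
def lev (j : Z → Y'.X) (A : Set Z) (ht : ι → ℕ) (f : ι → Y'.T → ℂ) (q : ι) : Set Y'.T :=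
  {t | Y'.π t ∈ j '' A ∧ ∀ q', ht q' < ht q → f q' t = 0}

/-- A triangular system of sections over `A` of the line bundles of the characters `χ q`, whose only
common zero is the orbit of `t₀`. -/
structure Tri (j : Z → Y'.X) (A : Set Z) (ht : ι → ℕ) (χ : ι → Y'.G →ₜ* ℂˣ) (f : ι → Y'.T → ℂ)
    (t₀ : Y'.T) : Prop where
  closed : IsClosed A
  cont : ∀ q, ContinuousOn (f q) (lev j A ht f q)
  eqv : ∀ q g, ∀ t ∈ lev j A ht f q, f q (g • t) = χ q g * f q t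
  mem : Y'.π t₀ ∈ j '' A
  zero : ∀ q, f q t₀ = 0
  uniq : ∀ t, Y'.π t ∈ j '' A → (∀ q, f q t = 0) → Y'.π t = Y'.π t₀

/-- A holomorphic local model of `k` along the germ `φ`. -/
structure KP.An (k : KP Y) {n : ℕ} (φ : (Fin n → ℂ) → Y.T)
    (M : (Fin n → ℂ) → k.P.W →ₗ[ℂ] (Fin k.r → ℂ)) : Prop where
  top : ∀ t, k.P.F t = ⊤
  an : ∀ w, AnalyticAt ℂ (fun z => M z w) 0
  sec : AnalyticAt ℂ (fun z => M z (k.s (φ z))) 0
  van : ∀ᶠ z in 𝓝 0, ∀ w ∈ k.van (φ z), M z w = 0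
  ker : ∀ w ∈ k.obs (φ 0), M 0 w = 0 → w ∈ k.van (φ 0)

namespace G3P

/-- The trivial bundle of rank `n`. -/
noncomputable def trv (Y : Sp) (n : ℕ) : VB Y :=
  VB.ofLin (Fin n → ℂ) (fun _ => LinearMap.id) (fun _ => rfl) (fun _ _ _ => rfl) continuous_snd
    (fun _ => ⊤) n isClosed_univ (fun _ => (finrank_top ℂ _).trans (Module.finrank_fin_fun ℂ))
    fun _ _ _ _ => trivial

theorem isSec_trv {n : ℕ} (G : C(Y.X, Fin n → ℂ)) : (trv Y n).IsSec fun t => G (Y.π t) :=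
  ⟨fun _ => trivial, G.continuous.comp Y.cont, fun g t => congrArg G (Y.π_smul g t)⟩

theorem cohom_trv {n : ℕ} (G : C(Y.X, Fin n → ℂ)) :
    Cohom (G ⁻¹' {0}) (pull G (tau n)) (isSec_trv G).eul := by
  obtain ⟨p, hp⟩ : ∃ p : (trv Y n).tot.X → Fin n → ℂ, ∀ y : (trv Y n).V,
      p ((trv Y n).tot.π y) = y.1.2 :=
    ⟨fun x => ((trv Y n).tot.out x : (trv Y n).V).1.2, fun y => by
      obtain ⟨g, hg⟩ := (trv Y n).tot.exists_out y
      exact (congrArg (fun y : (trv Y n).V => y.1.2) hg).symm⟩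
  have hc' : Continuous fun y : (trv Y n).V => y.1.2 := by fun_prop
  have hc : Continuous p := (trv Y n).tot.continuous_iff.2 (hc'.congr fun y => (hp y).symm)
  have ht : IsThom (trv Y n).Z (trv Y n).ch (pull p (tau n)) :=
    (trv Y n).isOVB.isThom_of (cocycle_pull hc (tau_cocycle n)) (fun x hx => by
      obtain ⟨y, rfl⟩ := (trv Y n).tot.surj x
      exact VB.mk_mem_Z.2 ((hp y).symm.trans (supp_tau n (supp_pull hc _ hx))))
      ((tau_deg n).pull _) fun x => by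
      obtain ⟨t, rfl⟩ := Y.surj x
      refine ⟨_, VB.ch_mk (E := trv Y n) (t := t) (ℓ := LinearMap.id) injective_id
        LinearMap.range_id, Mor.map_π _ _, congrArg P291Z.cls ((pull_pull _ _ _).trans ?_)⟩
      exact (congrArg (pull · (tau n)) (funext fun a => hp _)).trans (pull_id _)
  have h := (isSec_trv G).cohom_pull ht
  rw [pull_pull, show p ∘ (isSec_trv G).mor.map = G from funext fun x => by
    obtain ⟨t, rfl⟩ := Y.surj x
    exact (congrArg p (Mor.map_π _ t)).trans (hp _)] at h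
  exact h.mono (by rintro _ ⟨t, ht, rfl⟩; exact ht)

theorem locCo_of_lcoh {X : Type} [TopologicalSpace X] {A : Set X} {t t' : Coch X} (h : LCoh A t t')
    {n : ℕ} {ψ : (Fin n → ℂ) → X} (h1 : ∀ᶠ z in 𝓝 0, ContinuousAt ψ z ∧ (ψ z ∈ A → z = 0))
    (h0 : ψ 0 ∈ A) {c : ℂ} (hc : LocCo (pull ψ t') c) : LocCo (pull ψ t) c := by
  obtain ⟨b, h2, h3⟩ := h
  have h4 := h1.self_of_nhds.1
  refine hc.of_cohom (b := pull ψ b) ?_
  filter_upwards [h1, eventually_van (Van.pull h4 (h3 _ h0)), h4.eventually (h2 _ h0)] with z a e f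
  refine ⟨?_, fun hz => Van.pull a.1 fun g => hz (a.2 (f g))⟩
  rwa [map_sub, map_sub, ← δ_pull] at e

/-- the local coefficient of the Euler cocycle at an isolated zero is the local degree of the section
in any local model -/
theorem locCo_kp (k : KP Y) {n r : ℕ} (hr : k.r = r) {φ : (Fin n → ℂ) → Y.T}
    {M : (Fin n → ℂ) → k.P.W →L[ℂ] (Fin r → ℂ)}
    (h : ∀ᶠ z in 𝓝 0, ContinuousAt φ z ∧ ContinuousAt M z ∧ (∀ w ∈ k.van (φ z), M z w = 0) ∧
      (φ z ∈ k.Zs → z = 0)) (h0 : φ 0 ∈ k.Zs)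
    (hk : ∀ w ∈ k.obs (φ 0), M 0 w = 0 → w ∈ k.van (φ 0)) {d : ℂ}
    (hd : LocCo (pull (fun z => M z (k.s (φ z))) (tau r)) d) : LocCo (pull (Y.π ∘ φ) k.eul) d := by
  subst hr
  obtain ⟨ε, hε, h1⟩ := exists_radius h
  obtain ⟨ρ, c, h2, h3⟩ := exists_retr_ball (n := n) hε
  have h4 : ∀ z, ‖ρ z‖ ≤ ε := fun z =>
    (le_total ‖z‖ ε).elim (fun a => (h2 z a).symm ▸ a) fun a => (h3 z a).le
  have h5 : ∀ᶠ z in 𝓝 0, ρ z = z := mem_of_superset (Metric.closedBall_mem_nhds 0 hε)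
    fun z hz => h2 z (mem_closedBall_zero_iff.1 hz)
  let m : Mor (Sp.triv (Fin n → ℂ)) Y := ⟨1, fun z => φ (ρ z), continuous_const,
    continuous_iff_continuousAt.2 fun z => (h1 _ (h4 z)).1.comp c.continuousAt,
    fun _ _ => (one_smul _ _).symm⟩
  have h6 : Continuous fun z => M (ρ z) :=
    continuous_iff_continuousAt.2 fun z => (h1 _ (h4 z)).2.1.comp c.continuousAt
  have hM : k.Model m (trv _ k.r) fun z => (M (ρ z)).toLinearMap :=
    ⟨⟨Hom.of_continuous (fun _ _ _ => trivial) ((h6.comp continuous_fst).clm_apply continuous_snd)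
      fun g t w _ => congrArg (M (ρ t)) (one_smul Y.G (show k.P.W from w)), fun z => (h1 _ (h4 z)).2.2.1,
      fun z hz => by
        have e := (h1 _ (h4 z)).2.2.2 hz
        change ∀ w ∈ k.obs (φ (ρ z)), M (ρ z) w = 0 → w ∈ k.van (φ (ρ z))
        rw [e]
        exact hk⟩, rfl⟩
  have h7 : m.f (0 : Fin n → ℂ) ∈ k.Zs := show φ (ρ 0) ∈ k.Zs from h5.self_of_nhds.symm ▸ h0
  have h8 : ∀ᶠ z : Fin n → ℂ in 𝓝 0, m.f z ∈ k.Zs → z = 0 :=
    h5.mono fun z e a => e.symm.trans ((h1 _ (h4 z)).2.2.2 a)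
  have h9 := locCo_eul hM.isSec rfl (φ := id) (m := fun _ => .id ℂ (Fin k.r → ℂ))
    (.of_forall fun _ => ⟨continuousAt_id, continuousAt_const⟩) (fun _ _ a => a) (hM.van _ _ h7)
    (((hM.toPre.eventually h7).and h8).mono fun _ a b => a.2 (a.1 b))
    (hd.pull_congr (h5.mono fun z e => congrArg (fun z => M z (k.s (φ z))) e))
  have h10 := locCo_of_lcoh hM.lcoh (ψ := id)
    (h8.mono fun _ a => ⟨continuousAt_id, fun b => a (KP.mem_pre.1 b)⟩) (KP.mem_pre.2 h7) h9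
  have h11 : LocCo (pull (fun z : Fin n → ℂ => m.map z) k.eul) d :=
    (congrArg (LocCo · d) (pull_id _)).mp h10
  exact h11.pull_congr (h5.mono fun z e => (congrArg (Y.π ∘ φ) e.symm).trans (m.map_π z).symm)

theorem locCo_sum (k : KP Y) {E : VB Y} {s : Y.T → E.W} (hS : E.IsSec s) {T : Coch Y.X}
    (hT : LCoh (Y.π '' {t | s t = 0}) hS.eul T) {n : ℕ}
    (L : (E.W × (Fin k.r → ℂ)) ≃L[ℂ] (Fin n → ℂ)) (hn : E.r + k.r = n) {φ : (Fin n → ℂ) → Y.T}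
    {M : (Fin n → ℂ) → k.P.W →L[ℂ] (Fin k.r → ℂ)}
    (h : ∀ᶠ z in 𝓝 0, ContinuousAt φ z ∧ ContinuousAt M z ∧ (∀ w ∈ k.van (φ z), M z w = 0) ∧
      (s (φ z) = 0 → φ z ∈ k.Zs → z = 0)) (h0 : φ 0 ∈ k.Zs) (h0' : s (φ 0) = 0)
    (hk : ∀ w ∈ k.obs (φ 0), M 0 w = 0 → w ∈ k.van (φ 0)) {d : ℂ}
    (hd : LocCo (pull (fun z => L (s (φ z), M z (k.s (φ z)))) (tau n)) d) :
    LocCo (pull (Y.π ∘ φ) (T * k.eul)) d := by
  have h1 : φ 0 ∈ ((KP.ofSec hS).sum k).Zs := ⟨h0', h0⟩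
  obtain ⟨N, n1, n2⟩ : ∃ N : (Fin n → ℂ) → (E.W × k.P.W) →L[ℂ] (Fin n → ℂ),
      (∀ z, ContinuousAt M z → ContinuousAt N z) ∧ ∀ z w, N z w = L (w.1, M z w.2) :=
    ⟨fun z => L.toContinuousLinearMap ∘L (.inl ℂ _ _ ∘L .fst ℂ _ _ + .inr ℂ _ _ ∘L M z ∘L .snd ℂ _ _),
      fun z a => continuousAt_const.clm_comp (continuousAt_const.add
        (continuousAt_const.clm_comp (a.clm_comp continuousAt_const))),
      fun _ _ => congrArg L (Prod.ext (add_zero _) (zero_add _))⟩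
  have h2 := locCo_kp ((KP.ofSec hS).sum k) hn (φ := φ) (M := N)
    (h.mono fun z a => ⟨a.1, n1 z a.2.1, fun w hw => (n2 z w).trans
      (L.map_eq_zero_iff.2 (Prod.mk_eq_zero.2 ⟨hw.1, a.2.2.1 _ hw.2⟩)),
      fun b => a.2.2.2 b.1 b.2⟩) h1
    (fun w hw a => ⟨congrArg Prod.fst (L.map_eq_zero_iff.1 ((n2 _ w).symm.trans a)),
      hk _ hw.2 (congrArg Prod.snd (L.map_eq_zero_iff.1 ((n2 _ w).symm.trans a)))⟩)
    (hd.pull_congr (.of_forall fun z => n2 z _))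
  have h3 : LCoh ((KP.ofSec hS).sum k).Z ((KP.ofSec hS).sum k).eul (T * k.eul) := by
    rw [KP.Z_sum]
    exact (KP.eul_sum _ _).trans (((KP.eul_ofSec hS).trans hT).mul_right k.lco)
  exact locCo_of_lcoh h3.symm (h.mono fun z a => ⟨Y.cont.continuousAt.comp a.1, fun b =>
    a.2.2.2 (KP.mem_Z.1 b).1 (KP.mem_Z.1 b).2⟩) (KP.mem_Z.2 h1) h2

theorem lcoh_trv {E : VB Y} {s : Y.T → E.W} (hS : E.IsSec s) {n : ℕ} (G : C(Y.X, Fin n → ℂ)) :
    LCoh (Y.π '' {t | (G (Y.π t), s t) = 0}) ((isSec_trv G).sum hS).eul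
      (pull G (tau n) * hS.eul) := by
  refine (LCoh.of_cohom (Isol.of_subset (image_mono fun t a => Prod.ext a.1 a.2))
    (cohom_eul_sum _ hS)).trans (((LCoh.of_cohom (Isol.refl _) (cohom_trv G)).symm.mul_right
      (LCo.of_isCo hS.isCo)).mono ?_ (Isol.of_subset ?_))
  · rintro _ ⟨t, a, rfl⟩
    exact ⟨congrArg Prod.fst a, t, congrArg Prod.snd a, rfl⟩
  · rintro _ ⟨a, t, b, rfl⟩
    exact ⟨t, Prod.ext a b, rfl⟩

theorem eventually_clm {B V W : Type} [NormedAddCommGroup B] [NormedSpace ℂ B]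
    [NormedAddCommGroup V] [NormedSpace ℂ V] [FiniteDimensional ℂ V] [NormedAddCommGroup W]
    [NormedSpace ℂ W] [CompleteSpace W] {M : B → V →ₗ[ℂ] W}
    (h : ∀ w, AnalyticAt ℂ (fun z => M z w) 0) :
    ∀ᶠ z in 𝓝 0, ContinuousAt (fun z => LinearMap.toContinuousLinearMap (M z)) z := by
  obtain ⟨O, h1, h2, h3⟩ := eventually_nhds_iff.1
    (eventually_all.2 fun i => (h (Module.finBasis ℂ V i)).eventually_analyticAt)
  filter_upwards [h2.mem_nhds h3] with z hz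
  refine ContinuousOn.continuousAt (continuousOn_clm_apply.2 fun w => ?_) (h2.mem_nhds hz)
  rw [← (Module.finBasis ℂ V).sum_repr w]
  simp only [map_sum, map_smul]
  exact continuousOn_finsetSum _ fun i _ x hx =>
    ((h1 x hx i).continuousAt.const_smul _).continuousWithinAt

theorem exists_deg {V W : Type} [NormedAddCommGroup V] [NormedSpace ℂ V] [NormedAddCommGroup W]
    [NormedSpace ℂ W] [CompleteSpace V] [CompleteSpace W] {n : ℕ} (L : (V × W) ≃L[ℂ] (Fin n → ℂ)) {u u' : (Fin n → ℂ) → V}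
    {v : (Fin n → ℂ) → W} (hu : AnalyticAt ℂ u 0) (hv : AnalyticAt ℂ v 0)
    (hu' : ∀ᶠ z in 𝓝 0, ContinuousAt u' z) (u0 : u 0 = 0) (v0 : v 0 = 0)
    (h : ∀ᶠ z in 𝓝 0, v z = 0 → ∀ τ : ℂ, (1 - τ) • u z + τ • u' z = 0 → z = 0) :
    ∃ d : ℕ, d ≠ 0 ∧ LocCo (pull (fun z => L (u' z, v z)) (tau n)) d := by
  have a1 : AnalyticAt ℂ (fun z => L (u z, v z)) 0 :=
    (L.toContinuousLinearMap.analyticAt _).comp (hu.prod hv)
  obtain ⟨d, d1, d2⟩ := locCo_pos a1 ⟨by rw [u0, v0]; exact map_zero L,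
    (a1.eventually_analyticAt.and h).mono fun z a => ⟨a.1.continuousAt, fun b => by
      obtain ⟨b1, b2⟩ := Prod.mk_eq_zero.1 (L.map_eq_zero_iff.1 b)
      exact a.2 b2 0 (by rw [b1, smul_zero, zero_smul, add_zero])⟩⟩
  refine ⟨d, d1, d2.homotopy (h := fun w : unitInterval × (Fin n → ℂ) =>
    L ((1 - ((w.1 : ℝ) : ℂ)) • u w.2 + ((w.1 : ℝ) : ℂ) • u' w.2, v w.2)) ?_ (fun z => by simp)
    fun z => by simp⟩
  filter_upwards [h, hu', hu.eventually_analyticAt, hv.eventually_analyticAt] with z a2 a3 a4 a5 τ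
  have a7 : ContinuousAt (fun w : unitInterval × (Fin n → ℂ) => ((w.1 : ℝ) : ℂ)) (τ, z) := by
    fun_prop
  refine ⟨L.continuous.continuousAt.comp ((((continuousAt_const.sub a7).smul
    a4.continuousAt.snd').add (a7.smul a3.snd')).prodMk a5.continuousAt.snd'),
    supp_eq_empty.1 (tau_cocycle n) _, fun a9 => tau_van fun b => a9 ?_⟩
  obtain ⟨b1, b2⟩ := Prod.mk_eq_zero.1 (L.map_eq_zero_iff.1 b)
  exact a2 b2 _ b1

variable {j : Z → Y.X} {A : Set Z} {ht : ι → ℕ} {χ : ι → Y.G →ₜ* ℂˣ} {f : ι → Y.T → ℂ} {t₀ : Y.T}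

omit [TopologicalSpace Z] in
theorem all_zero {t : Y.T} (hA : Y.π t ∈ j '' A) (h : ∀ q, t ∈ lev j A ht f q → f q t = 0) (q : ι) :
    f q t = 0 := by
  induction e : ht q using Nat.strong_induction_on generalizing q with
  | _ n ih => exact h q ⟨hA, fun q' hq => ih _ (e ▸ hq) q' rfl⟩

theorem isClosed_lev (hj : IsClosedMap j) (h : Tri j A ht χ f t₀) (q : ι) :
    IsClosed (lev j A ht f q) := by
  induction e : ht q using Nat.strong_induction_on generalizing q with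
  | _ n ih =>
    rw [show lev j A ht f q = Y.π ⁻¹' (j '' A) ∩
      ⋂ q', ⋂ _ : ht q' < ht q, lev j A ht f q' ∩ f q' ⁻¹' {0} from Set.ext fun t =>
        ⟨fun a => ⟨a.1, mem_iInter₂.2 fun q' b => ⟨⟨a.1, fun _ c => a.2 _ (c.trans b)⟩, a.2 _ b⟩⟩,
          fun a => ⟨a.1, fun q' b => (mem_iInter₂.1 a.2 q' b).2⟩⟩]
    exact ((hj _ h.closed).preimage Y.cont).inter (isClosed_iInter fun q' => isClosed_iInter
      fun b => (h.cont q').preimage_isClosed_of_isClosed (ih _ (e ▸ b) q' rfl) isClosed_singleton)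

theorem smul_lev (h : Tri j A ht χ f t₀) (q : ι) (g : Y.G) (t : Y.T) (a : t ∈ lev j A ht f q) :
    g • t ∈ lev j A ht f q :=
  ⟨(Y.π_smul g t).symm ▸ a.1, fun q' b => by
    rw [h.eqv q' g t ⟨a.1, fun _ c => a.2 _ (c.trans b)⟩, a.2 _ b, mul_zero]⟩

theorem exists_sec [Fintype ι] (hj : IsClosedMap j) (h : Tri j A ht χ f t₀) :
    ∃ s : Y.T → ι → ℂ, (chars χ).IsSec s ∧ ∀ q, ∀ t ∈ lev j A ht f q, s t q = f q t := by
  choose s h1 h2 using fun q => (char (χ q)).exists_ext_sec (isClosed_lev hj h q) (smul_lev h q)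
    (f := f q) (h.cont q) (h.eqv q) fun _ _ => trivial
  exact ⟨fun t q => s q t, ⟨fun _ => trivial, continuous_pi fun q => (h1 q).cont,
    fun g t => funext fun q => (h1 q).eqv g t⟩, h2⟩

/-- reduction of the integral to a cocycle with support in a point -/
theorem exists_pt {X : Type} [TopologicalSpace X] [P291Z.Nice X] [CompactSpace Z] {j : Z → X}
    (hj : IsClosedEmbedding j) {t T : Coch X} (h : LCo (range j) t) (hT : supp (δ T) = ∅) {z₀ : Z}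
    (hz : ∀ᶠ z in 𝓝 z₀, j z ∈ supp T → z = z₀) {b : Coch Z} (hb : supp b ⊆ {z₀})
    (e : LCoh {z₀} b (pull j T)) (β : BM X) : ∃ c, supp (δ c) = ∅ ∧ supp c ⊆ {j z₀} ∧
      c - T * t ∈ Van (j z₀) ∧ ev (lgys j t β) b = ev β c := by
  have := P291Z.Nice.of_isEmbedding hj.isEmbedding hj.isClosed_range.isLocallyClosed
  rw [hj.isInducing.nhds_eq_comap, eventually_comap] at hz
  obtain ⟨N, h1, h2, h3⟩ := exists_mem_nhds_isClosed_subset (hz.and (h.isol _ ⟨z₀, rfl⟩))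
  have h4 : ∀ z, j z ∈ supp (cut N T) → z = z₀ := fun z a =>
    (h3 (h2.closure_eq ▸ (supp_cut N T a).1)).1 z rfl (supp_cut N T a).2
  have h5 := cut_in h1 T
  have h6 : supp (cut N T * t) ⊆ {j z₀} := fun y a => by
    obtain ⟨z, rfl⟩ := (h3 (h2.closure_eq ▸ (supp_cut N T (supp_mul _ _ a).1).1)).2
      (supp_mul _ _ a).2
    exact congrArg j (h4 z (supp_mul _ _ a).1)
  have h7 := van_mul_congr h5 (van_refl _ t)
  refine ⟨_, cocycle_of_pt (van_δ_mul (supp_eq_empty.1 hT _) (h.cyc _ ⟨z₀, rfl⟩)) h6 h7, h6,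
    van_symm h7, Eq.trans ?_ (ev_lgys hj h β (a := cut N T) (fun z => ?_)
      ((isClosed_supp _).preimage hj.continuous).isCompact
      (h6.trans (singleton_subset_iff.2 ⟨z₀, rfl⟩)) fun _ => van_refl _ _)⟩
  · rw [ev_eq, ev_eq, cls_eq_of_cohom isCompact_singleton ((e.trans (LCoh.of_van fun z a =>
      (mem_singleton_iff.1 a).symm ▸ van_pull_sub hj.continuous.continuousAt h5)).cohom
      isClosed_singleton hb fun z a => h4 z (supp_pull hj.continuous _ a))]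
  · by_cases a : j z ∈ supp (cut N T)
    · exact (h4 z a).symm ▸ van_δ_congr (van_symm h5) (supp_eq_empty.1 hT _)
    · exact Van.δ a

theorem pos [CompactSpace Z] [Fintype ι] {k : KP Y} {j : C(Z, Y.X)} (hj : k.IsZ j) {n n₀ : ℕ}
    {φ : (Fin n → ℂ) → Y.T} (h : Tri j A ht χ f (φ 0)) {a c : Coch Z} (ha : supp (δ a) = ∅)
    (hs : supp a ⊆ A) {G : C(Z, Fin n₀ → ℂ)} (hG : ∀ z ∈ A, G z = 0) (hI : Isol A (G ⁻¹' {0}))
    (hL : LCoh A a (pull G (tau n₀))) (hc : supp (δ c) = ∅)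
    (e : hcls c = H.map j (∏ q, c1 (χ q)).1) (hφ : ∀ᶠ z in 𝓝 0, ContinuousAt φ z)
    (hp : PCh fun z => Y.π (φ z)) {β : BM Y.X} {μ : ℂ} (hβ : Val β (fun z => Y.π (φ z)) μ)
    {M : (Fin n → ℂ) → k.P.W →ₗ[ℂ] (Fin k.r → ℂ)} (hM : k.An φ M)
    {g : (Fin n → ℂ) → Fin n₀ → ℂ} (hg : AnalyticAt ℂ g 0)
    (hg' : ∀ᶠ z in 𝓝 0, ∀ y, j y = Y.π (φ z) → G y = g z) {f' : ι → (Fin n → ℂ) → ℂ}
    (hf : ∀ q, AnalyticAt ℂ (f' q) 0)
    (hf' : ∀ q, ∀ᶠ z in 𝓝 0, φ z ∈ lev j A ht f q → f q (φ z) = f' q z)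
    (hn : n = n₀ + Fintype.card ι + k.r) : ev (k.vir j β) (a * c) ≠ 0 := by
  obtain ⟨s, hS, hs'⟩ := exists_sec hj.emb.isClosedMap h
  have : TietzeExtension.{0} (Fin n₀ → ℂ) := TietzeExtension.of_tvs ℂ
  obtain ⟨G', hG'⟩ := G.exists_extension' hj.emb
  have hG'' : ∀ z, G' (j z) = G z := congrFun hG'
  obtain ⟨z₀, hz, hz'⟩ := h.mem
  have h1 : ∀ z ∈ A, j z ∈ Y.π '' {t | s t = 0} → z = z₀ := fun z a ⟨t, b, e⟩ =>
    hj.emb.injective (e.symm.trans ((h.uniq t ⟨z, a, e.symm⟩ (all_zero ⟨z, a, e.symm⟩ fun q hq =>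
      (hs' q t hq).symm.trans (congrFun b q))).trans hz'.symm))
  have h2 : s (φ 0) = 0 := funext fun q =>
    (hs' q _ ⟨h.mem, fun q' _ => h.zero q'⟩).trans (h.zero q)
  have h3 : φ 0 ∈ k.Zs := KP.mem_Z.1 (hz' ▸ hj.mem z₀)
  have h4 : G' (Y.π (φ 0)) = 0 := hz' ▸ (hG'' z₀).trans (hG _ hz)
  have c1 := cocycle_pull G'.continuous (tau_cocycle n₀)
  have c2 := cocycle_pull j.continuous hS.isCo.cocycle
  obtain ⟨b, b1, b2, b3, b4⟩ := exists_pt hj.emb hj.lco (cocycle_mul c1 hS.isCo.cocycle)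
    ((hI z₀ hz).mono fun z a b => h1 z (a ((hG'' z).symm.trans
      (supp_tau n₀ (supp_pull G'.continuous _ (supp_mul _ _ b).1))))
      (hS.isCo.supp (supp_mul _ _ b).2)) (b := a * pull j hS.eul)
    (fun z b => h1 z (hs (supp_mul _ _ b).1)
      (hS.isCo.supp (supp_pull j.continuous _ (supp_mul _ _ b).2)))
    (((hL.mul_right ((LCo.of_isCo hS.isCo).pull j.continuous)).mono
      (singleton_subset_iff.2 ⟨hz, φ 0, h2, hz'.symm⟩) (Isol.of_subset fun z b => h1 z b.1 b.2)).trans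
      (LCoh.of_eq (by rw [map_mul, pull_pull, hG']))) β
  rw [KP.vir, ev_eq, cls_eq_of_cohom (isClosed_supp a).isCompact (cohom_mul_of_hcls ha hc c2 (by
    rw [e, ← H.map_hcls j hS.isCo.cocycle, hS.hcls_eul, eu_chars])), ← ev_eq, b4]
  rw [hz'] at b2 b3
  have m1 := eventually_clm hM.an
  have h5 : ∀ᶠ z in 𝓝 0, M z (k.s (φ z)) = 0 → ∀ τ : ℂ,
      (1 - τ) • (g z, fun q => f' q z) + τ • (G' (Y.π (φ z)), s (φ z)) = 0 → z = 0 := by
    have a := hI z₀ hz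
    rw [hj.emb.isInducing.nhds_eq_comap, eventually_comap, hz'] at a
    filter_upwards [k.eventually_mem h3 hφ.self_of_nhds m1.self_of_nhds hM.van hM.ker,
      hp.cont.eventually (a.and (hj.isol _ ⟨z₀, hz'⟩)), hg', eventually_all.2 hf', hp]
      with z a1 a2 a3 a4 a5 a6 τ a7
    obtain ⟨y, hy⟩ := a2.2 (KP.mem_Z.2 (a1 a6))
    have a8 : (1 - τ) • g z + τ • G' (Y.π (φ z)) = 0 := congrArg Prod.fst a7
    rw [← hy, hG'', ← a3 y hy, ← add_smul, sub_add_cancel, one_smul] at a8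
    have a9 : Y.π (φ z) ∈ j '' A := ⟨y, a2.1 y hy a8, hy⟩
    refine a5.2 (h.uniq _ a9 (all_zero (ht := ht) a9 fun q hq => ?_))
    have a10 : (1 - τ) • f' q z + τ • s (φ z) q = 0 := congrFun (congrArg Prod.snd a7) q
    rwa [hs' q _ hq, ← a4 q hq, ← add_smul, sub_add_cancel, one_smul] at a10
  obtain ⟨L⟩ : Nonempty ((((Fin n₀ → ℂ) × (ι → ℂ)) × (Fin k.r → ℂ)) ≃L[ℂ] (Fin n → ℂ)) :=
    ⟨ContinuousLinearEquiv.ofFinrankEq (by simp [hn])⟩
  obtain ⟨d, d1, d3⟩ := exists_deg L (hg.prod (AnalyticAt.pi hf)) hM.sec (hφ.mono fun z a =>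
    (((G'.continuous.comp Y.cont).prodMk hS.cont).continuousAt.comp a :))
    (Prod.ext ((hg'.self_of_nhds z₀ hz').symm.trans (hG _ hz)) (funext fun q =>
      ((hf' q).self_of_nhds ⟨h.mem, fun q' _ => h.zero q'⟩).symm.trans (h.zero q)))
    (hM.van.self_of_nhds _ h3) h5
  have d4 := locCo_sum k ((isSec_trv G').sum hS) (lcoh_trv hS G') L hn.symm (φ := φ)
    (M := fun z => LinearMap.toContinuousLinearMap (M z)) (by
      filter_upwards [hφ, m1, hM.van, h5] with z a1 a2 a3 a4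
      exact ⟨a1, a2, a3, fun a b => a4 (a3 _ b) 1
        (by rw [sub_self, zero_smul, zero_add, one_smul]; exact a)⟩) h3 (Prod.ext h4 h2) hM.ker d3
  have d5 := hβ b d b1 b2 (d4.of_van hp.cont b3)
  exact fun a => d1 (Nat.cast_eq_zero.1 (d5.symm.trans (by rw [a, mul_zero])))

end G3P

/-- **positivity** -/
theorem KP.IsZ.pos [CompactSpace Z] [Fintype ι] {k : KP Y} {i : Z → Y.X} (hi : k.IsZ i)
    {m : Mor Y' Y} (hm : IsHomeomorph m.map) {j : C(Z, Y'.X)} (hj : ∀ z, m.map (j z) = i z)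
    {A : Set Z} {ht : ι → ℕ} {χ : ι → Y'.G →ₜ* ℂˣ} {f : ι → Y'.T → ℂ} {n n₀ : ℕ}
    {φ : (Fin n → ℂ) → Y'.T} (h : Tri j A ht χ f (φ 0)) {a c : Coch Z} (ha : supp (δ a) = ∅)
    (hs : supp a ⊆ A) {G : C(Z, Fin n₀ → ℂ)} (hG : ∀ z ∈ A, G z = 0) (hI : Isol A (G ⁻¹' {0}))
    (hL : LCoh A a (pull G (tau n₀))) (hc : supp (δ c) = ∅)
    (e : hcls c = H.map j (∏ q, c1 (χ q)).1) (hφ : ∀ᶠ z in 𝓝 0, ContinuousAt φ z)
    (hp : PCh fun z => Y'.π (φ z)) {β : BM Y.X} {μ : ℂ} (hβ : Val β (fun z => Y.π (m.f (φ z))) μ)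
    {M : (Fin n → ℂ) → k.P.W →ₗ[ℂ] (Fin k.r → ℂ)} (hM : k.An (fun z => m.f (φ z)) M)
    {g : (Fin n → ℂ) → Fin n₀ → ℂ} (hg : AnalyticAt ℂ g 0)
    (hg' : ∀ᶠ z in 𝓝 0, ∀ y, j y = Y'.π (φ z) → G y = g z) {f' : ι → (Fin n → ℂ) → ℂ}
    (hf : ∀ q, AnalyticAt ℂ (f' q) 0)
    (hf' : ∀ q, ∀ᶠ z in 𝓝 0, φ z ∈ lev j A ht f q → f q (φ z) = f' q z)
    (hn : n = n₀ + Fintype.card ι + k.r) : ev (k.vir i β) (a * c) ≠ 0 := by
  have h1 : range j = m.map ⁻¹' range i := by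
    rw [show i = m.map ∘ j from funext fun z => (hj z).symm, range_comp,
      preimage_image_eq _ hm.injective]
  have h2 : (k.pb m).IsZ j := ⟨isClosedEmbedding_of_comp hm.isEmbedding hj hi.emb,
    by rw [h1, KP.Z_pb]; exact preimage_mono hi.sub,
    by rw [h1, KP.Z_pb]; exact hi.isol.preimage m.map.continuous⟩
  rw [(k.cmp_pb m).vir_res hm.isOpenEmbedding hi h2 hj]
  exact G3P.pos h2 h ha hs hG hI hL hc e hφ hp (Val.res hm.isOpenEmbedding hp.cont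
    (hβ.congr (.of_forall fun z => (m.map_π _).symm))) (M := M)
    ⟨fun _ => hM.top _, hM.an, hM.sec, hM.van, hM.ker⟩ hg hg' hf hf' hn

end Vale.Agent.P269.Ch
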